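import Vale.Agent.P032.H240.Iso.Ck
import Vale.Agent.P032.H283.Isp.Ks

/-!
# P032, isolated switching direction: check of clause 0
-/

namespace Vale.Agent.P032.H283.Isp

open Vale.Agent.P032.H240.Iso Vale.Agent.P032.H240.W

def S0 : List (List ℕ) := [K110, K561, K0, K1, K6]

def A_0 : List ℕ := [0x600080042200400212004001f8008003a50a00074834000e8014001d0068003a0150007403a000e8094001d0168003a0350007407a000e8114001d0268003a055000740ba000ea8500036834000d8028003601a000d80a8003603a000d8128003605a000d81a8003607a000d8228003609a000d82a800360ba000d, 0x4020001b0040003a00400021020000c80c00037102000740100007f218001b1208001f00c0003a20c000d8408001d90020010]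
def C_0 : List ℕ := [0x23450000000002200580091121000000008100028004882e40000000064600a00247ee40000000060600a0023fae40000000044600a0023f6e40000000024600a0023e874000000001032c90023ec7c000000001022890023ec84000000001022490023ec8c000000001022090023ec94000000001021c90023e89c000000001031890023e8a4000000001031490023ecac000000001021090023ecb4000000001020c90023ecbc000000001020890023e8c4000000001030490023e8cc000000001030090023e4c172c54a13244480f1c000000000000220011b802000000000419648011b40c0000000008228900236828000000001044920046d07000000000208824008da12000000000410e48011b02c0000000008318900236068000000001062920046d0f000000000208424008da22000000000410648011b44c00000000082089002360a8000000001060920046c1700000000020c024008d6284880e182840608080000000000000090008c, 0x158000000000001180020d800000000000036000834c000000000000980020cd000000000000160008354000000000000180020d28f32a190000000004d826400bb4a8cca8d40000000011e099002ed9995293700000000002406400bb5e654a46c00000000003019002ec074f1f4f00000000106c16400bb5293892000000001a406c8015a84e860000000011902c8013e64b00000000031015800912a40000000100800a80048]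
def D_0 : List ℕ := [0x10c000f18000f20000f90002e6d4001b40000f00000fe0001a10001fe000372000680000d70001a400034c000688000d60001b00003490003c0001c00012800098000740002c8000b00002f00006980007e000166b800077328001b566d26c001c, 0x3400036c0006a20007]
def H_0 : List ℕ := [0xf2f00037eba000da0a4a8ad70004d0602070c4847464a4b494c002ce8c8a0789a729a7a8a9282a0017245759565800137154001ba550006f554001bb550006c14d0007e114001b1450006d914001b5450006dd14001b2450006c114001b0220003ad0c0019286000c8430006521800334300054430005d430005c22a0007c254000e94a4acb4a8004d31495960007a3292b000b4e56000e, 0xb6c4c20017e61000640292a60000fc4b4be0016]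

set_option maxRecDepth 1000000 in
theorem r0 : chkU (gI S0 (ngC M0)) 7 8 6 7 A_0 C_0 D_0 H_0 = true := by decide +kernel

end Vale.Agent.P032.H283.Isp
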