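import Vale.Agent.P032.H240.Iso.Ck
import Vale.Agent.P032.H283.Isp.Ks

/-!
# P032, isolated switching direction: check of clause 2
-/

namespace Vale.Agent.P032.H283.Isp

open Vale.Agent.P032.H240.Iso Vale.Agent.P032.H240.W

def S2 : List (List ℕ) := [K0, K1, K6, K110, K561]

def A_2 : List ℕ := [0x8080006400800042010000740c00033204000d8020000fe43000362410003e030000d90600064408001bc0020010c00100085000800430008003f002000da8500036834000d8028003601a000d80a8003603a000d8128003605a000d81a8003607a000d8228003609a000d82a800360ba000d]
def C_2 : List ℕ := [0x1d0000000000002300040dc000000000000d80020620000000000004c001039000000000000160008158000000000000300040db5c386400000000400099002c77871b360000000019c80c8016247a08b300000000082416400b1c6ce5a000000000aa06c8014b4ca7000000000080164009985e0000000006202b0011aeb000000008040054002355480000000009002c0046a26000000008200050008d2ba000000003818050011a3740000000060300a002342e800000000a060140046fba0000000018180500117008000000001065920045d060000000004114480117428000000001044920045d0e0000000004110480117448000000001043920045c16000000000418c480117068000000001062920045d1e0000000004108480117488000000001041920045d2600000000041044801170a8000000001060920045c2e0000000004180480116ca2481c61440c20400000000000000900081]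
def D_2 : List ℕ := [0x1000078000700004a000240000b20002d0000bc0002c0002c0002700012c0005c0001740005d4000da0001a6000348000688000d00001ba0005b4000d80001a70003540006]
def H_2 : List ℕ := [0x60e1bb66abd7345ab19b20029db10005d310005cb10005c310005d62000a8c40015b10004e0d9c3a7800438ac0017d58002b2b00054ac0013560008c9b3875500086a8548004eea13a64a002182400067a40005f240005ea40005d919b3a001a9a2000650e000322800019234000c]

set_option maxRecDepth 1000000 in
theorem r2 : chkU (gI S2 (ngC M2)) 6 7 5 6 A_2 C_2 D_2 H_2 = true := by decide +kernel

end Vale.Agent.P032.H283.Isp
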