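import Vale.Agent.P032.H240.Iso.Ck
import Vale.Agent.P032.H283.Isp.Ks

/-!
# P032, isolated switching direction: check of clause 3
-/

namespace Vale.Agent.P032.H283.Isp

open Vale.Agent.P032.H240.Iso Vale.Agent.P032.H240.W

def S3 : List (List ℕ) := [K6, K29, K68, K110, K213, K363, K559, K590]

def A_3 : List ℕ := [0x30004002140020010c002000fc0080036144000d8c90003600a000d8068003602a000d80e8003604a000d8168003606a000d81e8003608a000d826800360aa000d82e800362880019324000c805000640680032054001903a000c8250006416800320d4001907a000c84500064268003215400190ba000c, 0x10100006c08000328c90003e08000190060001f00300010ec100036040000dd8600065608001b00c0003a20c000d8408001dc0020010]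
def C_3 : List ℕ := [0x23450000000002200580091121000000008100028004882e40000000070300a00247ee40000000060300a0023fae40000000050300a0023f6e40000000030300a0023ec74000000000852c90023ec7c000000000852890023ec84000000000852490023ec8c000000000852090023e894000000000841c90023e89c000000000841890023eca4000000000851490023ecac000000000851090023ecb4000000000850c90023e8bc000000000840890023e8c4000000000840490023e8cc000000000840090023e4c172c54a13244480f1c000000000000120011ba02000000000229648011b40c00000000045289002368280000000008a4920046d07000000000114824008d812000000000220e48011b02c00000000044189002368680000000008a2920046d0f000000000114424008da22000000000228648011b04c00000000044089002360a8000000000880920046c17000000000110024008d6284880e182840608080000000000000010008c, 0x2d0000000000002300041b00000000000006c0010638000000000001300041a60000000000002c0010688000000000000300041a11add2320000000039e82c80176cc6a15c00000000606159002b508d569370000000014c856400bb4ab35000000001120064009f369508c6c00000000333119002ed49d24000000002360990027d2a0e21800000000292032005680e9e3e9e0000000000488c8017664b00000000013015800912a40000000041800a80048]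
def D_3 : List ℕ := [0x9a0007d8001658001e50001eb0001f70003680006b0001700003500006a0000798000d08000fe0001a00001fe00037200068600078c0007a000260001280005c0001740005c8000db0001ac0001f988000db868001d4e3d670001c]
def H_3 : List ℕ := [0x12ddb8b15aa0014c36c001b81850416144c88f5a4ca0028c168001b253b2001480ad658000e697224cc9624622d5af52900163a20002e8c00098440006522000322a33e750001156200033b340019a9a000ce4d00066e68003214c00077a580033eb000191180017e30002b8c0009c60004415c000ef88000b995c3000a50a962d000dc6a9580052954ad60006e754000d]

set_option maxRecDepth 1000000 in
theorem r3 : chkU (gI S3 (ngC M3)) 7 7 6 7 A_3 C_3 D_3 H_3 = true := by decide +kernel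

end Vale.Agent.P032.H283.Isp
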