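import Vale.Agent.P032.H240.Iso.Ck
import Vale.Agent.P032.H283.Isp.Ks

/-!
# P032, isolated switching direction: check of clause 4
-/

namespace Vale.Agent.P032.H283.Isp

open Vale.Agent.P032.H240.Iso Vale.Agent.P032.H240.W

def S4 : List (List ℕ) := [K0, K1, K6, M2]

def A_4 : List ℕ := [0x8100006400c00042030000d8040000f9b04000f82000065860005ec10003201800074418001b0810003ac0040021400200109001000848010007e002000e]
def C_4 : List ℕ := [0x3e0000000000008c000ff60000000000006c000ffc00000000000098001f7400000000000058001fd400000000000018001fe5a39c7800000000348119002bc0020cb8000000004022320056e341160000000009b02c801470b220000000000008c8012e898000000000180ac00459200000000086002a001178d000000000220058008985000000008100028004490c0000000058900a002270c0000000050900a0021d0c0000000048900a0021e080000000048c0140042]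
def D_4 : List ℕ := [0x240009800070000a000098000ac0009c0004b8001620005a0001740005]
def H_4 : List ℕ := [0x34ca800214a13a3520020a600044c00069300026478d4a00198900015470002a10220009642000ae30001563470f200020]

set_option maxRecDepth 1000000 in
theorem r4 : chkU (gI S4 (ngC M4)) 6 7 5 6 A_4 C_4 D_4 H_4 = true := by decide +kernel

end Vale.Agent.P032.H283.Isp
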