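import Vale.Agent.P032.H240.Iso.Ck
import Vale.Agent.P032.H283.Isp.Ks

/-!
# P032, isolated switching direction: check of clause 40
-/

namespace Vale.Agent.P032.H283.Isp

open Vale.Agent.P032.H240.Iso Vale.Agent.P032.H240.W

def S40 : List (List ℕ) := [M39]

def A_40 : List ℕ := [0x1060000c81800036030000740300007c0180004200600011]
def C_40 : List ℕ := [0xa000000000060264007d000000000024132003c80000000000604c800f700000000000c132003d8000000000000264007d72ea62000000000000c10014b020009]
def D_40 : List ℕ := [0x0]
def H_40 : List ℕ := [0x86040c20500002b]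

set_option maxRecDepth 1000000 in
theorem r40 : chkU (gI S40 (ngC M40)) 4 7 5 6 A_40 C_40 D_40 H_40 = true := by decide +kernel

end Vale.Agent.P032.H283.Isp
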