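import Vale.Agent.P032.H283.Isp.C0
import Vale.Agent.P032.H283.Isp.C1
import Vale.Agent.P032.H283.Isp.C2
import Vale.Agent.P032.H283.Isp.C3
import Vale.Agent.P032.H283.Isp.C4
import Vale.Agent.P032.H283.Isp.C5
import Vale.Agent.P032.H283.Isp.C6
import Vale.Agent.P032.H283.Isp.C7
import Vale.Agent.P032.H283.Isp.R0
import Vale.Agent.P032.H283.Isp.R1
import Vale.Agent.P032.H283.Isp.R2
import Vale.Agent.P032.H283.Isp.R3
import Vale.Agent.P032.H283.Isp.R4
import Vale.Agent.P032.H283.Isp.R5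
import Vale.Agent.P032.H283.Isp.R6
import Vale.Agent.P032.H283.Isp.R7
import Vale.Agent.P032.H283.Isp.R8
import Vale.Agent.P032.H283.Isp.R9
import Vale.Agent.P032.H283.Isp.R10
import Vale.Agent.P032.H283.Isp.R11
import Vale.Agent.P032.H283.Isp.R12
import Vale.Agent.P032.H283.Isp.R13
import Vale.Agent.P032.H283.Isp.R14
import Vale.Agent.P032.H283.Isp.R15
import Vale.Agent.P032.H283.Isp.R16
import Vale.Agent.P032.H283.Isp.R17
import Vale.Agent.P032.H283.Isp.R18
import Vale.Agent.P032.H283.Isp.R19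
import Vale.Agent.P032.H283.Isp.R20
import Vale.Agent.P032.H283.Isp.R21
import Vale.Agent.P032.H283.Isp.R22
import Vale.Agent.P032.H283.Isp.R23
import Vale.Agent.P032.H283.Isp.R24
import Vale.Agent.P032.H283.Isp.R25
import Vale.Agent.P032.H283.Isp.R26
import Vale.Agent.P032.H283.Isp.R27
import Vale.Agent.P032.H283.Isp.R28
import Vale.Agent.P032.H283.Isp.R29
import Vale.Agent.P032.H283.Isp.R30
import Vale.Agent.P032.H283.Isp.R31
import Vale.Agent.P032.H283.Isp.R32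
import Vale.Agent.P032.H283.Isp.R33
import Vale.Agent.P032.H283.Isp.R34
import Vale.Agent.P032.H283.Isp.R35
import Vale.Agent.P032.H283.Isp.R36
import Vale.Agent.P032.H283.Isp.R37
import Vale.Agent.P032.H283.Isp.R38
import Vale.Agent.P032.H283.Isp.R39
import Vale.Agent.P032.H283.Isp.R40

/-!
# P032, isolated switching direction: no system
-/

namespace Vale.Agent.P032.H283.Isp

open Vale.Agent.P032.H240.Iso
open Vale.Agent.P032.H766.Iso (Fr St)

theorem gc {C : List ℕ} {L : List (List ℕ)} (h : GK C) (hL : ∀ C ∈ L, GK C) : ∀ K ∈ C :: L, GK K :=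
  fun K hK => (List.mem_cons.1 hK).elim (fun e => e ▸ h) (hL K)

theorem gn : ∀ K ∈ ([] : List (List ℕ)), GK K := fun _ h => absurd h List.not_mem_nil

set_option maxRecDepth 100000 in
theorem s0 : ∀ C ∈ S0, GK C :=
  (gc c110 (gc c561 (gc c0 (gc c1 (gc c6 gn)))))

theorem m0 : GK M0 := good_lem s0 (by decide +kernel) r0

set_option maxRecDepth 100000 in
theorem s1 : ∀ C ∈ S1, GK C :=
  (gc c67 (gc c171 (gc c194 (gc c559 (gc c12 (gc c111 (gc c160 (gc c287 (gc c13 (gc c169 (gc c217 (gc c229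
    (gc c284 (gc c440 (gc c472 (gc c478 (gc c502 (gc c654 (gc c656 (gc c685 (gc c0 (gc c25 (gc c43 (gc c44
    (gc c51 (gc c68 (gc c69 (gc c172 (gc c173 (gc c176 (gc c184 (gc c188 (gc c213 (gc c267 (gc c280 (gc c295
    (gc c302 (gc c305 (gc c313 (gc c321 (gc c366 (gc c367 (gc c426 (gc c432 (gc c433 (gc c435 (gc c477
    (gc c490 (gc c589 (gc c670 (gc c672 (gc c681 gn))))))))))))))))))))))))))))))))))))))))))))))))))))

theorem m1 : GK M1 := good_lem s1 (by decide +kernel) r1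

set_option maxRecDepth 100000 in
theorem s2 : ∀ C ∈ S2, GK C :=
  (gc c0 (gc c1 (gc c6 (gc c110 (gc c561 gn)))))

theorem m2 : GK M2 := good_lem s2 (by decide +kernel) r2

set_option maxRecDepth 100000 in
theorem s3 : ∀ C ∈ S3, GK C :=
  (gc c6 (gc c29 (gc c68 (gc c110 (gc c213 (gc c363 (gc c559 (gc c590 gn))))))))

theorem m3 : GK M3 := good_lem s3 (by decide +kernel) r3

set_option maxRecDepth 100000 in
theorem s4 : ∀ C ∈ S4, GK C :=
  (gc c0 (gc c1 (gc c6 (gc m2 gn))))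

theorem m4 : GK M4 := good_lem s4 (by decide +kernel) r4

set_option maxRecDepth 100000 in
theorem s5 : ∀ C ∈ S5, GK C :=
  (gc c149 (gc c671 (gc c138 (gc c172 (gc c4 (gc c43 (gc c3 (gc c626 (gc c121 (gc c654 (gc c88 (gc c171
    (gc c192 (gc c101 (gc c193 (gc c353 (gc c435 (gc c478 (gc c589 (gc c655 (gc c657 (gc c267 (gc c272
    (gc c436 (gc c559 (gc c568 (gc c44 (gc c112 (gc c173 (gc c191 (gc c375 (gc c656 (gc c25 (gc c37 (gc c51
    (gc c70 (gc c158 (gc c176 (gc c194 (gc c366 (gc c599 (gc m1 (gc m3 (gc c0 (gc c45 (gc c69 (gc c71 (gc c86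
    (gc c89 (gc c104 (gc c145 (gc c184 (gc c229 (gc c284 (gc c316 (gc c320 (gc c354 (gc c361 (gc c371
    (gc c387 (gc c437 (gc c454 (gc c455 (gc c557 (gc c591 (gc m2 (gc c12 (gc c39 (gc c52 (gc c67 (gc c111
    (gc c213 (gc c214 (gc c280 (gc c282 (gc c302 (gc c325 (gc c348 (gc c351 (gc c365 (gc c443 (gc c464
    (gc c472 (gc c560 (gc c1 (gc c6 (gc c29 (gc c41 (gc c68 (gc c90 (gc c117 (gc c127 (gc c134 (gc c159
    (gc c165 (gc c175 (gc c249 (gc c277 (gc c283 (gc c285 (gc c303 (gc c312 (gc c369 (gc c380 (gc c412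
    (gc c440 (gc c444 (gc c452 (gc c459 (gc c479 (gc c503 (gc c512 (gc c556 (gc c593 (gc c601 (gc c616
    (gc c659 (gc c663 (gc c667 (gc c668 (gc c681 (gc c686 (gc c693 (gc m4 (gc c42 (gc c64 (gc c73 (gc c92
    (gc c95 (gc c118 (gc c141 (gc c168 (gc c181 (gc c186 (gc c206 (gc c218 (gc c236 (gc c257 (gc c266
    (gc c273 (gc c274 (gc c286 (gc c292 (gc c294 (gc c310 (gc c311 (gc c314 (gc c352 (gc c360 (gc c364
    (gc c379 (gc c384 (gc c386 (gc c391 (gc c418 (gc c427 (gc c438 (gc c447 (gc c448 (gc c470 (gc c477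
    (gc c491 (gc c508 (gc c509 (gc c515 (gc c543 (gc c583 (gc c594 (gc c604 (gc c605 (gc c610 (gc c624
    (gc c665 (gc c666 (gc c672 (gc c685 (gc c691 (gc c5 (gc c7 (gc c8 (gc c15 (gc c24 (gc c31 (gc c49 (gc c87
    (gc c109 (gc c116 (gc c123 (gc c143 (gc c146 (gc c150 (gc c152 (gc c155 (gc c185 (gc c215 (gc c226
    (gc c227 (gc c228 (gc c239 (gc c247 (gc c252 (gc c265 (gc c275 (gc c279 (gc c298 (gc c309 (gc c313
    (gc c344 (gc c346 (gc c350 (gc c356 (gc c367 (gc c393 (gc c394 (gc c410 (gc c411 (gc c426 (gc c432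
    (gc c433 (gc c434 (gc c453 (gc c460 (gc c463 (gc c483 (gc c485 (gc c497 (gc c502 (gc c513 (gc c518
    (gc c541 (gc c558 (gc c561 (gc c587 (gc c602 (gc c609 (gc c618 (gc c621 (gc c636 (gc c639 (gc c658
    (gc c661 (gc c670 (gc c674 (gc c680 (gc c690 (gc c11 (gc c13 (gc c14 (gc c40 (gc c65 (gc c83 (gc c93
    (gc c100 (gc c102 (gc c110 (gc c124 (gc c133 (gc c142 (gc c144 (gc c153 (gc c154 (gc c156 (gc c157
    (gc c170 (gc c178 (gc c190 (gc c196 (gc c204 (gc c205 (gc c220 (gc c230 (gc c232 (gc c242 (gc c246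
    (gc c255 (gc c260 (gc c270 (gc c287 (gc c288 (gc c290 (gc c295 (gc c296 (gc c305 (gc c307 (gc c315
    (gc c326 (gc c327 (gc c345 (gc c368 (gc c370 (gc c374 (gc c376 (gc c382 (gc c399 (gc c405 (gc c415
    (gc c417 (gc c446 (gc c456 (gc c458 (gc c476 (gc c481 (gc c482 (gc c486 (gc c487 (gc c496 (gc c499
    (gc c504 (gc c506 (gc c507 (gc c516 (gc c529 (gc c532 (gc c539 (gc c545 (gc c551 (gc c569 (gc c600
    (gc c608 (gc c611 (gc c613 (gc c619 (gc c631 (gc c633 (gc c642 (gc c643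
    (gc c677 gn)))))))))))))))))))))))))))))))))))))))))))))))))))))))))))))))))))))))))))))))))))))))))))))))))))))))))))))))))))))))))))))))))))))))))))))))))))))))))))))))))))))))))))))))))))))))))))))))))))))))))))))))))))))))))))))))))))))))))))))))))))))))))))))))))))))))))))))))))))))))))))))))))))))))))))))))))))))))))))))))))))))))

theorem m5 : GK M5 := good_lem s5 (by decide +kernel) r5

set_option maxRecDepth 100000 in
theorem s6 : ∀ C ∈ S6, GK C :=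
  (gc c149 (gc c138 (gc c455 (gc c6 (gc c12 (gc c172 (gc c192 (gc c320 (gc c623 (gc c4 (gc c89 (gc c121
    (gc c127 (gc c325 (gc c435 (gc c486 (gc c503 (gc c518 (gc c543 (gc c577 (gc c599 (gc m5 (gc c42 (gc c43
    (gc c50 (gc c70 (gc c71 (gc c115 (gc c134 (gc c171 (gc c181 (gc c193 (gc c241 (gc c250 (gc c267 (gc c276
    (gc c278 (gc c310 (gc c316 (gc c366 (gc c367 (gc c371 (gc c410 (gc c411 (gc c447 (gc c470 (gc c541
    (gc c609 (gc c621 (gc c626 (gc c659 (gc c661 (gc c667 (gc c1 (gc c7 (gc c15 (gc c30 (gc c31 (gc c44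
    (gc c67 (gc c75 (gc c88 (gc c111 (gc c112 (gc c113 (gc c116 (gc c118 (gc c140 (gc c145 (gc c152 (gc c159
    (gc c168 (gc c173 (gc c176 (gc c180 (gc c205 (gc c213 (gc c223 (gc c248 (gc c270 (gc c280 (gc c283
    (gc c324 (gc c345 (gc c346 (gc c351 (gc c364 (gc c369 (gc c372 (gc c401 (gc c416 (gc c427 (gc c430
    (gc c431 (gc c434 (gc c436 (gc c437 (gc c440 (gc c443 (gc c450 (gc c472 (gc c512 (gc c513 (gc c519
    (gc c551 (gc c569 (gc c590 (gc c601 (gc c602 (gc c613 (gc c654 (gc c655 (gc c657 (gc c663 (gc c671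
    (gc c672 (gc c681 (gc c686 (gc c693 (gc m0 (gc m2 (gc m3
    (gc m4 gn)))))))))))))))))))))))))))))))))))))))))))))))))))))))))))))))))))))))))))))))))))))))))))))))))))))))))))))))))))))))))))

theorem m6 : GK M6 := good_lem s6 (by decide +kernel) r6

set_option maxRecDepth 100000 in
theorem s7 : ∀ C ∈ S7, GK C :=
  (gc c6 (gc c149 (gc c121 (gc c138 (gc c277 (gc c145 (gc c333 (gc c671 (gc m5 (gc c3 (gc c148 (gc c387
    (gc c584 (gc c89 (gc c108 (gc c393 (gc c29 (gc c70 (gc c345 (gc c559 (gc c655 (gc c31 (gc c44 (gc c67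
    (gc c116 (gc c265 (gc c267 (gc c270 (gc c280 (gc c325 (gc c577 (gc c599 (gc c626 (gc c629 (gc c654 (gc m6
    (gc c0 (gc c1 (gc c4 (gc c43 (gc c83 (gc c147 (gc c172 (gc c194 (gc c195 (gc c196 (gc c264 (gc c272
    (gc c284 (gc c292 (gc c334 (gc c341 (gc c350 (gc c364 (gc c366 (gc c426 (gc c427 (gc c432 (gc c436
    (gc c437 (gc c443 (gc c446 (gc c454 (gc c459 (gc c478 (gc c502 (gc c503 (gc c535 (gc c581 (gc c677
    (gc c11 (gc c51 (gc c69 (gc c71 (gc c92 (gc c101 (gc c109 (gc c117 (gc c127 (gc c133 (gc c141 (gc c159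
    (gc c171 (gc c230 (gc c273 (gc c282 (gc c283 (gc c293 (gc c320 (gc c339 (gc c340 (gc c342 (gc c346
    (gc c356 (gc c371 (gc c379 (gc c380 (gc c433 (gc c438 (gc c450 (gc c472 (gc c479 (gc c506 (gc c509
    (gc c512 (gc c546 (gc c551 (gc c557 (gc c605 (gc c656 (gc c657 (gc c659 (gc c663 (gc c670 (gc c690 (gc c7
    (gc c14 (gc c37 (gc c52 (gc c65 (gc c73 (gc c75 (gc c84 (gc c87 (gc c93 (gc c95 (gc c102 (gc c104
    (gc c111 (gc c118 (gc c123 (gc c143 (gc c144 (gc c150 (gc c173 (gc c175 (gc c176 (gc c184 (gc c190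
    (gc c191 (gc c205 (gc c214 (gc c224 (gc c229 (gc c245 (gc c247 (gc c251 (gc c252 (gc c262 (gc c266
    (gc c274 (gc c276 (gc c286 (gc c288 (gc c289 (gc c296 (gc c297 (gc c299 (gc c303 (gc c305 (gc c312
    (gc c313 (gc c315 (gc c324 (gc c326 (gc c352 (gc c359 (gc c365 (gc c370 (gc c372 (gc c384 (gc c385
    (gc c391 (gc c400 (gc c401 (gc c435 (gc c440 (gc c447 (gc c457 (gc c460 (gc c468 (gc c471 (gc c487
    (gc c491 (gc c507 (gc c508 (gc c514 (gc c515 (gc c516 (gc c528 (gc c529 (gc c539 (gc c545 (gc c556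
    (gc c561 (gc c568 (gc c589 (gc c596 (gc c604 (gc c610 (gc c621 (gc c622 (gc c624 (gc c633 (gc c634
    (gc c638 (gc c649 (gc c665 (gc c672 (gc c684 (gc c685 (gc c686 (gc c693
    (gc m2 gn))))))))))))))))))))))))))))))))))))))))))))))))))))))))))))))))))))))))))))))))))))))))))))))))))))))))))))))))))))))))))))))))))))))))))))))))))))))))))))))))))))))))))))))))))))))))))))))))))))))))))))))))))))))

theorem m7 : GK M7 := good_lem s7 (by decide +kernel) r7

set_option maxRecDepth 100000 in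
theorem s8 : ∀ C ∈ S8, GK C :=
  (gc c267 (gc c1 (gc c3 (gc c149 (gc c284 (gc c364 (gc c0 (gc c138 (gc c173 (gc c265 (gc c6 (gc c172 (gc m5
    (gc c116 (gc c117 (gc c184 (gc c345 (gc c87 (gc c145 (gc c277 (gc c365 (gc c626 (gc c49 (gc c171 (gc c181
    (gc c333 (gc c654 (gc c655 (gc c686 (gc m7 (gc c175 (gc c190 (gc c387 (gc c4 (gc c13 (gc c95 (gc c111
    (gc c121 (gc c127 (gc c134 (gc c228 (gc c232 (gc c270 (gc c292 (gc c346 (gc c391 (gc c459 (gc c559
    (gc c581 (gc c584 (gc c646 (gc c30 (gc c31 (gc c70 (gc c101 (gc c105 (gc c109 (gc c118 (gc c123 (gc c124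
    (gc c137 (gc c141 (gc c150 (gc c156 (gc c194 (gc c205 (gc c217 (gc c236 (gc c245 (gc c247 (gc c251
    (gc c256 (gc c257 (gc c258 (gc c316 (gc c380 (gc c384 (gc c385 (gc c417 (gc c426 (gc c432 (gc c444
    (gc c633 (gc c647 (gc c11 (gc c15 (gc c38 (gc c41 (gc c52 (gc c71 (gc c73 (gc c88 (gc c89 (gc c104
    (gc c113 (gc c142 (gc c144 (gc c165 (gc c223 (gc c227 (gc c252 (gc c263 (gc c264 (gc c286 (gc c289
    (gc c313 (gc c325 (gc c334 (gc c348 (gc c352 (gc c356 (gc c368 (gc c369 (gc c374 (gc c379 (gc c446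
    (gc c458 (gc c479 (gc c483 (gc c512 (gc c516 (gc c535 (gc c545 (gc c577 (gc c600 (gc c610 (gc c616
    (gc c618 (gc c671 (gc c673 (gc m0 (gc m4
    (gc m6 gn)))))))))))))))))))))))))))))))))))))))))))))))))))))))))))))))))))))))))))))))))))))))))))))))))))))))))))))))))))))))))))))))))))))

theorem m8 : GK M8 := good_lem s8 (by decide +kernel) r8

set_option maxRecDepth 100000 in
theorem s9 : ∀ C ∈ S9, GK C :=
  (gc c0 (gc c1 (gc c3 (gc c6 (gc c138 (gc c267 (gc c184 (gc c149 (gc c173 (gc c671 (gc c116 (gc c284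
    (gc c364 (gc c87 (gc c175 (gc c117 (gc c190 (gc c70 (gc c118 (gc c171 (gc c277 (gc c654 (gc c626 (gc c686
    (gc c49 (gc c50 (gc c111 (gc c172 (gc c194 (gc c464 (gc m5 (gc c88 (gc c181 (gc c478 (gc m8 (gc c112
    (gc c159 (gc c345 (gc c387 (gc c458 (gc c557 (gc c655 (gc c71 (gc c92 (gc c192 (gc c265 (gc c292 (gc c314
    (gc c374 (gc c375 (gc c459 (gc c559 (gc m4 (gc c11 (gc c30 (gc c66 (gc c83 (gc c108 (gc c121 (gc c156
    (gc c228 (gc c247 (gc c252 (gc c446 (gc c657 (gc c674 (gc m6 (gc c13 (gc c52 (gc c84 (gc c86 (gc c95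
    (gc c150 (gc c155 (gc c169 (gc c205 (gc c215 (gc c220 (gc c224 (gc c257 (gc c258 (gc c274 (gc c289
    (gc c294 (gc c341 (gc c342 (gc c349 (gc c351 (gc c361 (gc c384 (gc c595 (gc c616 (gc c629 (gc c677 (gc m1
    (gc c4 (gc c31 (gc c40 (gc c73 (gc c93 (gc c104 (gc c105 (gc c124 (gc c134 (gc c145 (gc c170 (gc c178
    (gc c227 (gc c229 (gc c232 (gc c241 (gc c286 (gc c316 (gc c325 (gc c347 (gc c352 (gc c359 (gc c365
    (gc c369 (gc c391 (gc c394 (gc c411 (gc c418 (gc c440 (gc c460 (gc c479 (gc c487 (gc c541 (gc c543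
    (gc c545 (gc c560 (gc c632 (gc m7 (gc c5 (gc c7 (gc c29 (gc c43 (gc c51 (gc c89 (gc c90 (gc c127 (gc c133
    (gc c137 (gc c141 (gc c142 (gc c143 (gc c148 (gc c157 (gc c158 (gc c165 (gc c223 (gc c234 (gc c235
    (gc c239 (gc c251 (gc c256 (gc c279 (gc c285 (gc c287 (gc c288 (gc c313 (gc c350 (gc c353 (gc c380
    (gc c389 (gc c417 (gc c426 (gc c432 (gc c489 (gc c490 (gc c535 (gc c547 (gc c591 (gc c594 (gc c599
    (gc c600 (gc c610 (gc c620 (gc c631 (gc c633 (gc c638 (gc c659 (gc c663 (gc c678 (gc c684 (gc c685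
    (gc m2 gn)))))))))))))))))))))))))))))))))))))))))))))))))))))))))))))))))))))))))))))))))))))))))))))))))))))))))))))))))))))))))))))))))))))))))))))))))))))))))))))))))))))))))))))))))))))))))))

theorem m9 : GK M9 := good_lem s9 (by decide +kernel) r9

set_option maxRecDepth 100000 in
theorem s10 : ∀ C ∈ S10, GK C :=
  (gc c364 (gc c267 (gc c0 (gc c173 (gc c118 (gc c88 (gc c4 (gc c116 (gc c117 (gc c181 (gc c284 (gc c138
    (gc c184 (gc c190 (gc c464 (gc c3 (gc c654 (gc c6 (gc c112 (gc c140 (gc c175 (gc c274 (gc c14 (gc c134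
    (gc c145 (gc c149 (gc c285 (gc c71 (gc c92 (gc c247 (gc c446 (gc c529 (gc m9 (gc c12 (gc c15 (gc c89
    (gc c101 (gc c111 (gc c172 (gc c228 (gc c232 (gc c264 (gc c345 (gc c365 (gc c384 (gc c671 (gc c11 (gc c41
    (gc c90 (gc c104 (gc c171 (gc c178 (gc c194 (gc c204 (gc c342 (gc c398 (gc c410 (gc c483 (gc c626 (gc m5
    (gc m6 (gc c31 (gc c38 (gc c39 (gc c49 (gc c87 (gc c110 (gc c122 (gc c123 (gc c128 (gc c206 (gc c275
    (gc c298 (gc c352 (gc c372 (gc c453 (gc c476 (gc c479 (gc c545 (gc c557 (gc c561 (gc c592 (gc c618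
    (gc c647 (gc c655 (gc c686 (gc m7 (gc c1 (gc c5 (gc c45 (gc c70 (gc c84 (gc c86 (gc c102 (gc c109
    (gc c121 (gc c133 (gc c146 (gc c156 (gc c165 (gc c192 (gc c195 (gc c215 (gc c217 (gc c238 (gc c244
    (gc c265 (gc c279 (gc c281 (gc c283 (gc c294 (gc c341 (gc c348 (gc c349 (gc c351 (gc c353 (gc c356
    (gc c357 (gc c369 (gc c403 (gc c437 (gc c455 (gc c460 (gc c478 (gc c543 (gc c577 (gc c599 (gc c642
    (gc c661 (gc c663 (gc c665 (gc c675 (gc m0 (gc m1 (gc m2 (gc m3 (gc m4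
    (gc m8 gn))))))))))))))))))))))))))))))))))))))))))))))))))))))))))))))))))))))))))))))))))))))))))))))))))))))))))))))))))))))))))))))))))))))))))

theorem m10 : GK M10 := good_lem s10 (by decide +kernel) r10

set_option maxRecDepth 100000 in
theorem s11 : ∀ C ∈ S11, GK C :=
  (gc c149 (gc c6 (gc c138 (gc m7 (gc c70 (gc c655 (gc c671 (gc m8 (gc m9 (gc m10 (gc c71 (gc c37 (gc c4
    (gc c43 (gc c67 (gc c141 (gc c194 (gc c387 (gc c172 (gc c458 (gc c560 (gc c686 (gc c3 (gc c41 (gc c42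
    (gc c44 (gc c147 (gc c333 (gc c341 (gc c559 (gc c626 (gc c654 (gc c677 (gc c29 (gc c69 (gc c145 (gc c193
    (gc c257 (gc c296 (gc c464 (gc c519 (gc c1 (gc c11 (gc c50 (gc c65 (gc c75 (gc c89 (gc c108 (gc c121
    (gc c134 (gc c143 (gc c184 (gc c230 (gc c277 (gc c288 (gc c292 (gc c295 (gc c342 (gc c394 (gc c436
    (gc c446 (gc c479 (gc c502 (gc c529 (gc c599 (gc c604 (gc c647 (gc c657 (gc m6 (gc c31 (gc c49 (gc c88
    (gc c90 (gc c112 (gc c117 (gc c123 (gc c150 (gc c171 (gc c173 (gc c223 (gc c228 (gc c249 (gc c272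
    (gc c273 (gc c287 (gc c294 (gc c312 (gc c314 (gc c345 (gc c351 (gc c375 (gc c427 (gc c435 (gc c450
    (gc c454 (gc c459 (gc c478 (gc c508 (gc c535 (gc c541 (gc c556 (gc c656 (gc c685 (gc c0 (gc c7 (gc c51
    (gc c52 (gc c68 (gc c83 (gc c86 (gc c111 (gc c116 (gc c163 (gc c165 (gc c170 (gc c191 (gc c192 (gc c205
    (gc c234 (gc c247 (gc c258 (gc c266 (gc c280 (gc c281 (gc c285 (gc c286 (gc c311 (gc c313 (gc c324
    (gc c326 (gc c339 (gc c359 (gc c364 (gc c371 (gc c384 (gc c393 (gc c402 (gc c404 (gc c405 (gc c416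
    (gc c417 (gc c418 (gc c426 (gc c432 (gc c437 (gc c440 (gc c443 (gc c447 (gc c461 (gc c470 (gc c483
    (gc c503 (gc c515 (gc c516 (gc c517 (gc c531 (gc c543 (gc c551 (gc c568 (gc c577 (gc c584 (gc c587
    (gc c616 (gc c619 (gc c622 (gc c632 (gc c633 (gc c637 (gc c639 (gc c648 (gc c674 (gc c681 (gc c693 (gc m5
    (gc c13 (gc c14 (gc c25 (gc c30 (gc c38 (gc c39 (gc c40 (gc c45 (gc c66 (gc c84 (gc c95 (gc c102 (gc c104
    (gc c127 (gc c135 (gc c139 (gc c144 (gc c146 (gc c152 (gc c154 (gc c168 (gc c175 (gc c176 (gc c181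
    (gc c190 (gc c213 (gc c217 (gc c220 (gc c229 (gc c232 (gc c236 (gc c238 (gc c245 (gc c248 (gc c262
    (gc c267 (gc c270 (gc c276 (gc c279 (gc c283 (gc c290 (gc c301 (gc c302 (gc c303 (gc c307 (gc c309
    (gc c316 (gc c320 (gc c340 (gc c346 (gc c347 (gc c349 (gc c350 (gc c353 (gc c360 (gc c367 (gc c369
    (gc c372 (gc c373 (gc c374 (gc c382 (gc c388 (gc c400 (gc c411 (gc c420 (gc c422 (gc c438 (gc c444
    (gc c452 (gc c460 (gc c472 (gc c474 (gc c492 (gc c497 (gc c509 (gc c523 (gc c525 (gc c528 (gc c532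
    (gc c539 (gc c581 (gc c589 (gc c594 (gc c596 (gc c601 (gc c609 (gc c613 (gc c621 (gc c623 (gc c634
    (gc c642 (gc c643 (gc c649 (gc c659 (gc c663 (gc c665 (gc c684 (gc m0 (gc m1
    (gc m3 gn))))))))))))))))))))))))))))))))))))))))))))))))))))))))))))))))))))))))))))))))))))))))))))))))))))))))))))))))))))))))))))))))))))))))))))))))))))))))))))))))))))))))))))))))))))))))))))))))))))))))))))))))))))))))))))))))))))))))))))))))))))))))))))))))))))))))))))))))))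

theorem m11 : GK M11 := good_lem s11 (by decide +kernel) r11

set_option maxRecDepth 100000 in
theorem s12 : ∀ C ∈ S12, GK C :=
  (gc c138 (gc c626 (gc c149 (gc m10 (gc c3 (gc c6 (gc c43 (gc c172 (gc c29 (gc c387 (gc c44 (gc c108
    (gc c121 (gc c277 (gc c654 (gc m7 (gc m9 (gc c83 (gc c326 (gc c559 (gc c655 (gc c0 (gc c71 (gc c145
    (gc c339 (gc c341 (gc c375 (gc c433 (gc c591 (gc c663 (gc m11 (gc c25 (gc c37 (gc c68 (gc c88 (gc c156
    (gc c158 (gc c228 (gc c316 (gc c342 (gc c371 (gc c426 (gc c432 (gc c440 (gc c487 (gc c557 (gc c671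
    (gc c13 (gc c31 (gc c41 (gc c52 (gc c65 (gc c69 (gc c101 (gc c111 (gc c141 (gc c150 (gc c175 (gc c176
    (gc c192 (gc c214 (gc c217 (gc c224 (gc c247 (gc c257 (gc c265 (gc c280 (gc c287 (gc c294 (gc c295
    (gc c302 (gc c305 (gc c309 (gc c313 (gc c349 (gc c365 (gc c367 (gc c369 (gc c394 (gc c436 (gc c459
    (gc c472 (gc c478 (gc c502 (gc c512 (gc c547 (gc c560 (gc c568 (gc c583 (gc c589 (gc c599 (gc c616
    (gc c629 (gc c639 (gc c646 (gc c649 (gc c656 (gc c659 (gc c686 (gc c1 (gc c4 (gc c11 (gc c40 (gc c49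
    (gc c50 (gc c67 (gc c70 (gc c92 (gc c93 (gc c116 (gc c118 (gc c123 (gc c127 (gc c140 (gc c148 (gc c171
    (gc c173 (gc c194 (gc c229 (gc c236 (gc c254 (gc c256 (gc c262 (gc c266 (gc c267 (gc c282 (gc c284
    (gc c286 (gc c292 (gc c296 (gc c311 (gc c345 (gc c359 (gc c370 (gc c385 (gc c460 (gc c464 (gc c477
    (gc c489 (gc c508 (gc c509 (gc c515 (gc c516 (gc c535 (gc c543 (gc c594 (gc c601 (gc c609 (gc c657
    (gc c677 (gc c693 (gc m1 (gc m4 (gc m8 (gc c2 (gc c7 (gc c8 (gc c24 (gc c38 (gc c66 (gc c73 (gc c75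
    (gc c91 (gc c103 (gc c104 (gc c105 (gc c112 (gc c113 (gc c125 (gc c143 (gc c147 (gc c152 (gc c155
    (gc c159 (gc c165 (gc c181 (gc c184 (gc c185 (gc c186 (gc c190 (gc c191 (gc c196 (gc c205 (gc c206
    (gc c213 (gc c215 (gc c226 (gc c233 (gc c235 (gc c239 (gc c242 (gc c243 (gc c244 (gc c249 (gc c251
    (gc c252 (gc c264 (gc c270 (gc c272 (gc c273 (gc c281 (gc c283 (gc c288 (gc c289 (gc c293 (gc c303
    (gc c310 (gc c312 (gc c314 (gc c319 (gc c320 (gc c324 (gc c325 (gc c344 (gc c350 (gc c356 (gc c364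
    (gc c366 (gc c383 (gc c384 (gc c389 (gc c412 (gc c427 (gc c428 (gc c435 (gc c443 (gc c446 (gc c447
    (gc c448 (gc c450 (gc c485 (gc c490 (gc c491 (gc c492 (gc c504 (gc c506 (gc c514 (gc c520 (gc c545
    (gc c546 (gc c551 (gc c577 (gc c595 (gc c600 (gc c604 (gc c610 (gc c613 (gc c633 (gc c638 (gc c643
    (gc c647 (gc c648 (gc c665 (gc c670 (gc c674 (gc c691 (gc m5
    (gc m6 gn))))))))))))))))))))))))))))))))))))))))))))))))))))))))))))))))))))))))))))))))))))))))))))))))))))))))))))))))))))))))))))))))))))))))))))))))))))))))))))))))))))))))))))))))))))))))))))))))))))))))))))))))))))))))))))))))))))))))))))))))))))))))))))))))))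

theorem m12 : GK M12 := good_lem s12 (by decide +kernel) r12

set_option maxRecDepth 100000 in
theorem s13 : ∀ C ∈ S13, GK C :=
  (gc c1 (gc m10 (gc c0 (gc c145 (gc c6 (gc c108 (gc c173 (gc c184 (gc c194 (gc c267 (gc m12 (gc c70 (gc c83
    (gc c149 (gc c229 (gc c319 (gc c50 (gc c284 (gc c559 (gc c3 (gc c71 (gc c121 (gc c175 (gc c190 (gc c270
    (gc c309 (gc c341 (gc c364 (gc c365 (gc c11 (gc c84 (gc c87 (gc c111 (gc c155 (gc c158 (gc c172 (gc c181
    (gc c224 (gc c228 (gc c289 (gc c292 (gc c374 (gc c380 (gc c387 (gc c487 (gc c626 (gc c647 (gc c13 (gc c31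
    (gc c105 (gc c109 (gc c116 (gc c117 (gc c118 (gc c133 (gc c154 (gc c171 (gc c205 (gc c206 (gc c223
    (gc c227 (gc c230 (gc c256 (gc c294 (gc c311 (gc c316 (gc c325 (gc c345 (gc c346 (gc c384 (gc c385
    (gc c440 (gc c444 (gc c459 (gc c478 (gc c545 (gc c547 (gc c599 (gc c638 (gc c654 (gc c671 (gc c690 (gc m1
    (gc c41 (gc c52 (gc c66 (gc c88 (gc c93 (gc c95 (gc c104 (gc c113 (gc c135 (gc c137 (gc c138 (gc c140
    (gc c144 (gc c147 (gc c150 (gc c196 (gc c204 (gc c211 (gc c217 (gc c239 (gc c257 (gc c264 (gc c265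
    (gc c277 (gc c283 (gc c286 (gc c287 (gc c313 (gc c314 (gc c318 (gc c389 (gc c417 (gc c426 (gc c432
    (gc c460 (gc c525 (gc c557 (gc c560 (gc c622 (gc c632 (gc c633 (gc m5 (gc m7
    (gc m11 gn)))))))))))))))))))))))))))))))))))))))))))))))))))))))))))))))))))))))))))))))))))))))))))))))))))))))))))))))))))))))))))))))

theorem m13 : GK M13 := good_lem s13 (by decide +kernel) r13

set_option maxRecDepth 100000 in
theorem s14 : ∀ C ∈ S14, GK C :=
  (gc c121 (gc m7 (gc c214 (gc c277 (gc c472 (gc c478 (gc c487 (gc c559 (gc c568 (gc c589 (gc c654 (gc m13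
    (gc c173 (gc c184 (gc c190 (gc c191 (gc c215 (gc c264 (gc c270 (gc c280 (gc c324 (gc c366 (gc c459
    (gc m10 (gc c89 (gc c113 (gc c127 (gc c175 (gc c209 (gc c213 (gc c267 (gc c274 (gc c276 (gc c288 (gc c320
    (gc c435 (gc c447 (gc c477 (gc c502 (gc c503 (gc c504 (gc c509 (gc c513 (gc c583 (gc c587 (gc c657
    (gc c668 (gc c693 (gc m5 gn)))))))))))))))))))))))))))))))))))))))))))))))))

theorem m14 : GK M14 := good_lem s14 (by decide +kernel) r14

set_option maxRecDepth 100000 in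
theorem s15 : ∀ C ∈ S15, GK C :=
  (gc c149 (gc c0 (gc c138 (gc c71 (gc c121 (gc c6 (gc c267 (gc c365 (gc c3 (gc c172 (gc m8 (gc c145 (gc c265
    (gc c654 (gc m13 (gc c1 (gc c31 (gc c49 (gc c173 (gc c655 (gc c671 (gc c150 (gc c247 (gc c284 (gc m10
    (gc c89 (gc c108 (gc c116 (gc c118 (gc c171 (gc c194 (gc c228 (gc c529 (gc c557 (gc m7 (gc c70 (gc c88
    (gc c117 (gc c165 (gc c252 (gc c277 (gc c341 (gc c384 (gc c638 (gc c13 (gc c140 (gc c141 (gc c175
    (gc c190 (gc c205 (gc c234 (gc c256 (gc c285 (gc c345 (gc c364 (gc c559 (gc c626 (gc m14 (gc c84 (gc c87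
    (gc c92 (gc c111 (gc c112 (gc c127 (gc c159 (gc c184 (gc c369 (gc c379 (gc c387 (gc c440 (gc c512
    (gc c584 (gc c599 (gc c647 (gc c4 (gc c11 (gc c83 (gc c86 (gc c123 (gc c143 (gc c144 (gc c170 (gc c192
    (gc c230 (gc c232 (gc c300 (gc c325 (gc c333 (gc c342 (gc c375 (gc c380 (gc c385 (gc c398 (gc c411
    (gc c418 (gc c428 (gc c458 (gc c479 (gc c516 (gc c560 (gc c686 (gc m5 (gc m11 (gc c38 (gc c40 (gc c50
    (gc c102 (gc c105 (gc c124 (gc c156 (gc c181 (gc c227 (gc c257 (gc c258 (gc c283 (gc c292 (gc c316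
    (gc c351 (gc c352 (gc c374 (gc c417 (gc c422 (gc c426 (gc c432 (gc c444 (gc c446 (gc c478 (gc c483
    (gc c485 (gc c520 (gc c545 (gc m6 (gc m9 (gc m12 (gc c2 (gc c7 (gc c15 (gc c30 (gc c39 (gc c73 (gc c95
    (gc c103 (gc c113 (gc c125 (gc c132 (gc c133 (gc c139 (gc c142 (gc c147 (gc c148 (gc c154 (gc c155
    (gc c157 (gc c178 (gc c195 (gc c206 (gc c217 (gc c223 (gc c224 (gc c229 (gc c233 (gc c236 (gc c242
    (gc c251 (gc c255 (gc c264 (gc c275 (gc c287 (gc c288 (gc c289 (gc c294 (gc c311 (gc c313 (gc c334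
    (gc c346 (gc c349 (gc c359 (gc c361 (gc c368 (gc c392 (gc c394 (gc c421 (gc c459 (gc c461 (gc c464
    (gc c487 (gc c519 (gc c523 (gc c525 (gc c535 (gc c543 (gc c568 (gc c577 (gc c581 (gc c600 (gc c610
    (gc c616 (gc c624 (gc c631 (gc c642 (gc c643 (gc c646 (gc c650 (gc c656 (gc c659 (gc c663 (gc c678
    (gc c687
    (gc m1 gn)))))))))))))))))))))))))))))))))))))))))))))))))))))))))))))))))))))))))))))))))))))))))))))))))))))))))))))))))))))))))))))))))))))))))))))))))))))))))))))))))))))))))))))))))))))))))))))))))))))))))))))))))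

theorem m15 : GK M15 := good_lem s15 (by decide +kernel) r15

set_option maxRecDepth 100000 in
theorem s16 : ∀ C ∈ S16, GK C :=
  (gc m15 (gc m10 (gc m11 (gc c149 (gc m8 (gc c172 (gc m7 (gc m13 (gc c194 (gc c559 (gc c277 (gc c655 (gc c71
    (gc c145 (gc c333 (gc c531 (gc c4 (gc c6 (gc c29 (gc c70 (gc c139 (gc c152 (gc c254 (gc c380 (gc c384
    (gc c560 (gc c1 (gc c7 (gc c42 (gc c49 (gc c83 (gc c108 (gc c137 (gc c138 (gc c141 (gc c146 (gc c171
    (gc c204 (gc c230 (gc c232 (gc c242 (gc c251 (gc c267 (gc c372 (gc c382 (gc c387 (gc c400 (gc c402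
    (gc c440 (gc c478 (gc c536 (gc c596 (gc c600 (gc c609 (gc c619 (gc c626 (gc c631 (gc c633 (gc c654 (gc m6
    (gc m14 (gc c0 (gc c11 (gc c13 (gc c25 (gc c38 (gc c41 (gc c43 (gc c44 (gc c67 (gc c73 (gc c75 (gc c88
    (gc c93 (gc c134 (gc c140 (gc c142 (gc c143 (gc c148 (gc c173 (gc c176 (gc c191 (gc c213 (gc c214
    (gc c226 (gc c237 (gc c243 (gc c265 (gc c274 (gc c280 (gc c283 (gc c284 (gc c292 (gc c302 (gc c315
    (gc c326 (gc c345 (gc c351 (gc c356 (gc c370 (gc c376 (gc c383 (gc c401 (gc c435 (gc c436 (gc c438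
    (gc c459 (gc c460 (gc c464 (gc c472 (gc c502 (gc c506 (gc c509 (gc c510 (gc c528 (gc c532 (gc c541
    (gc c558 (gc c584 (gc c589 (gc c604 (gc c610 (gc c612 (gc c618 (gc c639 (gc c642 (gc c646 (gc c647
    (gc c656 (gc c663 (gc c671 (gc c678 (gc c686 (gc m1 (gc m5
    (gc m9 gn))))))))))))))))))))))))))))))))))))))))))))))))))))))))))))))))))))))))))))))))))))))))))))))))))))))))))))))))))))))))))))))))))))))))

theorem m16 : GK M16 := good_lem s16 (by decide +kernel) r16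

set_option maxRecDepth 100000 in
theorem s17 : ∀ C ∈ S17, GK C :=
  (gc c671 (gc c43 (gc c145 (gc c171 (gc c654 (gc c0 (gc c6 (gc c37 (gc c459 (gc c111 (gc c194 (gc c277
    (gc m11 (gc m13 (gc c71 (gc c149 (gc c172 (gc c559 (gc c639 (gc c657 (gc m10 (gc m14 (gc c69 (gc c138
    (gc c165 (gc c280 (gc c345 (gc c387 (gc c509 (gc c626 (gc m7 (gc m8 (gc m16 (gc c31 (gc c67 (gc c112
    (gc c117 (gc c227 (gc c351 (gc c452 (gc c458 (gc c487 (gc c646 (gc c663 (gc c672 (gc c681 (gc c693 (gc m9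
    (gc c52 (gc c86 (gc c116 (gc c121 (gc c150 (gc c232 (gc c249 (gc c267 (gc c272 (gc c284 (gc c285 (gc c292
    (gc c320 (gc c346 (gc c350 (gc c352 (gc c365 (gc c372 (gc c380 (gc c400 (gc c412 (gc c435 (gc c436
    (gc c515 (gc c535 (gc c604 (gc c605 (gc c655 (gc c1 (gc c4 (gc c23 (gc c25 (gc c40 (gc c44 (gc c45
    (gc c49 (gc c64 (gc c68 (gc c70 (gc c88 (gc c93 (gc c103 (gc c123 (gc c134 (gc c140 (gc c146 (gc c148
    (gc c159 (gc c176 (gc c190 (gc c192 (gc c193 (gc c204 (gc c205 (gc c214 (gc c229 (gc c230 (gc c244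
    (gc c258 (gc c264 (gc c265 (gc c273 (gc c281 (gc c282 (gc c288 (gc c290 (gc c293 (gc c307 (gc c312
    (gc c315 (gc c325 (gc c342 (gc c364 (gc c367 (gc c370 (gc c393 (gc c404 (gc c411 (gc c433 (gc c438
    (gc c440 (gc c443 (gc c444 (gc c446 (gc c447 (gc c454 (gc c460 (gc c472 (gc c478 (gc c479 (gc c491
    (gc c492 (gc c497 (gc c502 (gc c506 (gc c508 (gc c522 (gc c531 (gc c543 (gc c556 (gc c557 (gc c568
    (gc c583 (gc c589 (gc c591 (gc c594 (gc c599 (gc c619 (gc c622 (gc c623 (gc c633 (gc c634 (gc c659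
    (gc c666 (gc c668 (gc c677 (gc c685 (gc c686 (gc c688
    (gc m0 gn))))))))))))))))))))))))))))))))))))))))))))))))))))))))))))))))))))))))))))))))))))))))))))))))))))))))))))))))))))))))))))))))))))))))))))))))))))))))))))))))))))))))

theorem m17 : GK M17 := good_lem s17 (by decide +kernel) r17

set_option maxRecDepth 100000 in
theorem s18 : ∀ C ∈ S18, GK C :=
  (gc c3 (gc m9 (gc m13 (gc c277 (gc c121 (gc c138 (gc c192 (gc c83 (gc c149 (gc c172 (gc c266 (gc c447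
    (gc c591 (gc c655 (gc c6 (gc c43 (gc c127 (gc c156 (gc c171 (gc c175 (gc c194 (gc c220 (gc c316 (gc c324
    (gc c326 (gc c375 (gc c443 (gc c508 (gc c515 (gc c557 (gc c568 (gc c654 (gc c686 (gc c693 (gc c37 (gc c51
    (gc c69 (gc c103 (gc c108 (gc c169 (gc c181 (gc c227 (gc c234 (gc c260 (gc c267 (gc c270 (gc c292
    (gc c365 (gc c369 (gc c371 (gc c436 (gc c459 (gc c478 (gc c502 (gc c600 (gc c626 (gc c657 (gc m5 (gc m8
    (gc m10 (gc m12 (gc m14 (gc m15 (gc c0 (gc c4 (gc c13 (gc c29 (gc c30 (gc c31 (gc c44 (gc c49 (gc c68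
    (gc c73 (gc c88 (gc c89 (gc c95 (gc c105 (gc c115 (gc c124 (gc c163 (gc c173 (gc c176 (gc c184 (gc c191
    (gc c200 (gc c213 (gc c217 (gc c226 (gc c228 (gc c229 (gc c242 (gc c249 (gc c273 (gc c276 (gc c280
    (gc c284 (gc c287 (gc c293 (gc c294 (gc c302 (gc c313 (gc c320 (gc c342 (gc c356 (gc c359 (gc c364
    (gc c366 (gc c374 (gc c376 (gc c384 (gc c418 (gc c435 (gc c440 (gc c446 (gc c458 (gc c464 (gc c474
    (gc c479 (gc c483 (gc c487 (gc c492 (gc c504 (gc c535 (gc c545 (gc c556 (gc c559 (gc c583 (gc c587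
    (gc c589 (gc c594 (gc c599 (gc c610 (gc c620 (gc c677 (gc m1 (gc m16
    (gc m17 gn)))))))))))))))))))))))))))))))))))))))))))))))))))))))))))))))))))))))))))))))))))))))))))))))))))))))))))))))))))))))))))))))))))))))))

theorem m18 : GK M18 := good_lem s18 (by decide +kernel) r18

set_option maxRecDepth 100000 in
theorem s19 : ∀ C ∈ S19, GK C :=
  (gc c149 (gc c138 (gc c172 (gc m15 (gc c247 (gc m11 (gc c6 (gc c4 (gc c43 (gc c654 (gc c655 (gc c3 (gc c52
    (gc c121 (gc c387 (gc m10 (gc c70 (gc c127 (gc c68 (gc c123 (gc c258 (gc m8 (gc m13 (gc c49 (gc c65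
    (gc c89 (gc c379 (gc c433 (gc c478 (gc c559 (gc c626 (gc m7 (gc c145 (gc c366 (gc c435 (gc c436 (gc c671
    (gc c44 (gc c71 (gc c101 (gc c175 (gc c192 (gc c273 (gc c427 (gc c599 (gc c686 (gc c25 (gc c31 (gc c51
    (gc c67 (gc c181 (gc c194 (gc c257 (gc c284 (gc c333 (gc c341 (gc c37 (gc c83 (gc c88 (gc c108 (gc c117
    (gc c144 (gc c191 (gc c193 (gc c285 (gc c292 (gc c296 (gc c375 (gc c437 (gc c452 (gc c515 (gc c523
    (gc c560 (gc c577 (gc c584 (gc c639 (gc c657 (gc c665 (gc m16 (gc c0 (gc c13 (gc c41 (gc c69 (gc c92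
    (gc c132 (gc c147 (gc c148 (gc c152 (gc c173 (gc c196 (gc c267 (gc c303 (gc c339 (gc c364 (gc c373
    (gc c408 (gc c411 (gc c412 (gc c464 (gc c551 (gc c568 (gc c583 (gc c591 (gc c656 (gc c1 (gc c29 (gc c45
    (gc c50 (gc c73 (gc c84 (gc c86 (gc c118 (gc c137 (gc c155 (gc c156 (gc c176 (gc c184 (gc c213 (gc c223
    (gc c249 (gc c265 (gc c294 (gc c309 (gc c349 (gc c352 (gc c356 (gc c359 (gc c369 (gc c417 (gc c418
    (gc c468 (gc c477 (gc c479 (gc c483 (gc c492 (gc c508 (gc c510 (gc c535 (gc c545 (gc c556 (gc c581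
    (gc c594 (gc c667 (gc c670 (gc c685 (gc m9 (gc c5 (gc c11 (gc c42 (gc c87 (gc c105 (gc c112 (gc c142
    (gc c146 (gc c205 (gc c206 (gc c214 (gc c227 (gc c228 (gc c229 (gc c232 (gc c233 (gc c236 (gc c251
    (gc c252 (gc c262 (gc c266 (gc c270 (gc c274 (gc c280 (gc c288 (gc c320 (gc c324 (gc c334 (gc c340
    (gc c350 (gc c354 (gc c370 (gc c371 (gc c376 (gc c388 (gc c415 (gc c426 (gc c432 (gc c447 (gc c454
    (gc c472 (gc c487 (gc c503 (gc c504 (gc c509 (gc c512 (gc c513 (gc c517 (gc c531 (gc c539 (gc c540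
    (gc c543 (gc c547 (gc c589 (gc c601 (gc c604 (gc c612 (gc c619 (gc c621 (gc c631 (gc c633 (gc c638
    (gc c646 (gc c659 (gc c673 (gc c681 (gc c690 (gc c693 (gc m1 (gc c8 (gc c14 (gc c38 (gc c40 (gc c64
    (gc c66 (gc c90 (gc c116 (gc c120 (gc c141 (gc c150 (gc c158 (gc c168 (gc c171 (gc c190 (gc c217 (gc c220
    (gc c224 (gc c226 (gc c243 (gc c244 (gc c246 (gc c264 (gc c272 (gc c275 (gc c276 (gc c277 (gc c281
    (gc c282 (gc c283 (gc c286 (gc c287 (gc c295 (gc c297 (gc c300 (gc c302 (gc c310 (gc c312 (gc c321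
    (gc c325 (gc c326 (gc c346 (gc c360 (gc c361 (gc c365 (gc c367 (gc c372 (gc c374 (gc c383 (gc c385
    (gc c393 (gc c402 (gc c419 (gc c420 (gc c438 (gc c443 (gc c458 (gc c470 (gc c482 (gc c489 (gc c491
    (gc c502 (gc c525 (gc c529 (gc c546 (gc c557 (gc c587 (gc c605 (gc c610 (gc c618 (gc c636 (gc c637
    (gc c647 (gc c649 (gc c658 (gc c663 (gc c666 (gc c668 (gc c674 (gc c678 (gc c679
    (gc c684 gn)))))))))))))))))))))))))))))))))))))))))))))))))))))))))))))))))))))))))))))))))))))))))))))))))))))))))))))))))))))))))))))))))))))))))))))))))))))))))))))))))))))))))))))))))))))))))))))))))))))))))))))))))))))))))))))))))))))))))))))))))))))))))))))))))))))))))))))))))))))))))))))))))))))))))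

theorem m19 : GK M19 := good_lem s19 (by decide +kernel) r19

set_option maxRecDepth 100000 in
theorem s20 : ∀ C ∈ S20, GK C :=
  (gc c138 (gc c0 (gc c267 (gc m15 (gc c172 (gc c6 (gc c49 (gc c149 (gc c3 (gc c70 (gc c671 (gc m18 (gc c1
    (gc c173 (gc c71 (gc c121 (gc c365 (gc c559 (gc c89 (gc c364 (gc c112 (gc c228 (gc c265 (gc c284 (gc c655
    (gc m19 (gc c116 (gc c117 (gc c118 (gc c147 (gc c184 (gc c277 (gc c345 (gc c478 (gc c529 (gc m10 (gc m14
    (gc m16 (gc c175 (gc c181 (gc c190 (gc c458 (gc c654 (gc m13 (gc c4 (gc c111 (gc c145 (gc c247 (gc c251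
    (gc c252 (gc m7 (gc c7 (gc c31 (gc c171 (gc c232 (gc c333 (gc c369 (gc c373 (gc c387 (gc c464 (gc c479
    (gc c483 (gc c560 (gc c599 (gc m8 (gc c13 (gc c41 (gc c83 (gc c86 (gc c87 (gc c100 (gc c102 (gc c108
    (gc c140 (gc c230 (gc c233 (gc c313 (gc c411 (gc c418 (gc c440 (gc c459 (gc c647 (gc m5 (gc m9 (gc m11
    (gc c11 (gc c50 (gc c88 (gc c141 (gc c159 (gc c194 (gc c205 (gc c257 (gc c258 (gc c285 (gc c294 (gc c350
    (gc c375 (gc c417 (gc c584 (gc c626 (gc c686 (gc m0 (gc c84 (gc c101 (gc c123 (gc c127 (gc c132 (gc c156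
    (gc c165 (gc c192 (gc c196 (gc c220 (gc c256 (gc c259 (gc c288 (gc c292 (gc c325 (gc c341 (gc c349
    (gc c352 (gc c359 (gc c379 (gc c426 (gc c432 (gc c437 (gc c499 (gc c543 (gc c545 (gc c620 (gc c623
    (gc c633 (gc c642 (gc c673 (gc c677 (gc c678 (gc m17 (gc c5 (gc c39 (gc c40 (gc c73 (gc c90 (gc c93
    (gc c95 (gc c104 (gc c109 (gc c113 (gc c115 (gc c124 (gc c134 (gc c142 (gc c148 (gc c155 (gc c158
    (gc c170 (gc c187 (gc c204 (gc c234 (gc c236 (gc c242 (gc c270 (gc c279 (gc c289 (gc c299 (gc c316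
    (gc c334 (gc c342 (gc c347 (gc c351 (gc c374 (gc c376 (gc c380 (gc c384 (gc c385 (gc c394 (gc c403
    (gc c408 (gc c438 (gc c444 (gc c460 (gc c472 (gc c490 (gc c512 (gc c519 (gc c535 (gc c581 (gc c631
    (gc c638 (gc c646 (gc c656 (gc c684 (gc m1 (gc m6
    (gc m12 gn))))))))))))))))))))))))))))))))))))))))))))))))))))))))))))))))))))))))))))))))))))))))))))))))))))))))))))))))))))))))))))))))))))))))))))))))))))))))))))))))))))))))))))))))))))))))))))))))))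

theorem m20 : GK M20 := good_lem s20 (by decide +kernel) r20

set_option maxRecDepth 100000 in
theorem s21 : ∀ C ∈ S21, GK C :=
  (gc c267 (gc c0 (gc m13 (gc c6 (gc c88 (gc c49 (gc c138 (gc c108 (gc c230 (gc c284 (gc c1 (gc c111 (gc c184
    (gc m20 (gc c3 (gc c70 (gc c71 (gc c112 (gc c116 (gc c117 (gc c118 (gc c171 (gc c228 (gc c265 (gc c364
    (gc c87 (gc c121 (gc c156 (gc c172 (gc c173 (gc c175 (gc c190 (gc c365 (gc c31 (gc c89 (gc c277 (gc c479
    (gc c671 (gc c145 (gc c194 (gc c227 (gc c256 (gc c294 (gc c341 (gc c345 (gc c440 (gc c478 (gc c686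
    (gc m14 (gc m15 (gc m18 (gc c13 (gc c83 (gc c103 (gc c149 (gc c170 (gc c275 (gc c287 (gc c344 (gc c351
    (gc c373 (gc c417 (gc c464 (gc c483 (gc c559 (gc c600 (gc c632 (gc c654 (gc c655 (gc m5 (gc m7 (gc m9
    (gc c4 (gc c81 (gc c84 (gc c92 (gc c123 (gc c141 (gc c147 (gc c163 (gc c181 (gc c205 (gc c206 (gc c233
    (gc c292 (gc c293 (gc c356 (gc c369 (gc c374 (gc c379 (gc c393 (gc c394 (gc c444 (gc c460 (gc c487
    (gc c529 (gc c560 (gc c610 (gc c638 (gc c647 (gc c674 (gc c690 (gc m10 (gc m12 (gc m16 (gc c7 (gc c11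
    (gc c41 (gc c50 (gc c52 (gc c66 (gc c68 (gc c73 (gc c101 (gc c134 (gc c150 (gc c155 (gc c165 (gc c169
    (gc c200 (gc c220 (gc c241 (gc c251 (gc c252 (gc c257 (gc c264 (gc c274 (gc c279 (gc c281 (gc c286
    (gc c288 (gc c313 (gc c314 (gc c325 (gc c340 (gc c342 (gc c349 (gc c353 (gc c380 (gc c384 (gc c398
    (gc c416 (gc c426 (gc c428 (gc c432 (gc c446 (gc c458 (gc c489 (gc c516 (gc c520 (gc c543 (gc c557
    (gc c619 (gc c622 (gc c629 (gc c672 (gc m1 (gc m11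
    (gc m17 gn)))))))))))))))))))))))))))))))))))))))))))))))))))))))))))))))))))))))))))))))))))))))))))))))))))))))))))))))))))))))))))))))))))))))))))))))))))))))))))))))

theorem m21 : GK M21 := good_lem s21 (by decide +kernel) r21

set_option maxRecDepth 100000 in
theorem s22 : ∀ C ∈ S22, GK C :=
  (gc c267 (gc c138 (gc c284 (gc c173 (gc c49 (gc c149 (gc c228 (gc c277 (gc c559 (gc c184 (gc c364 (gc c365
    (gc m9 (gc c1 (gc c87 (gc c116 (gc c117 (gc c172 (gc c599 (gc m21 (gc c3 (gc c112 (gc c121 (gc c171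
    (gc c478 (gc m18 (gc m20 (gc c0 (gc c111 (gc c145 (gc c194 (gc c229 (gc c265 (gc c345 (gc c671 (gc m13
    (gc c6 (gc c108 (gc c118 (gc c155 (gc c170 (gc c175 (gc c178 (gc c190 (gc c227 (gc c369 (gc c459 (gc c655
    (gc m7 (gc m15 (gc c71 (gc c84 (gc c88 (gc c103 (gc c123 (gc c147 (gc c158 (gc c204 (gc c230 (gc c256
    (gc c289 (gc c292 (gc c341 (gc c346 (gc c351 (gc c356 (gc c374 (gc c380 (gc c387 (gc c440 (gc c483
    (gc c557 (gc c560 (gc c595 (gc c617 (gc c654 (gc c686 (gc m10 (gc c11 (gc c13 (gc c31 (gc c70 (gc c89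
    (gc c95 (gc c113 (gc c127 (gc c139 (gc c140 (gc c141 (gc c159 (gc c181 (gc c205 (gc c206 (gc c217
    (gc c223 (gc c224 (gc c239 (gc c242 (gc c252 (gc c257 (gc c274 (gc c275 (gc c285 (gc c286 (gc c293
    (gc c294 (gc c316 (gc c319 (gc c325 (gc c342 (gc c384 (gc c487 (gc c610 (gc c616 (gc c631 (gc c632 (gc m5
    (gc m14 (gc m17 (gc c4 (gc c66 (gc c86 (gc c93 (gc c105 (gc c124 (gc c131 (gc c137 (gc c142 (gc c150
    (gc c165 (gc c180 (gc c192 (gc c236 (gc c251 (gc c340 (gc c352 (gc c393 (gc c394 (gc c411 (gc c444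
    (gc c446 (gc c458 (gc c460 (gc c479 (gc c512 (gc c529 (gc c539 (gc c545 (gc c547 (gc c596 (gc c619
    (gc c622 (gc c626 (gc c643 (gc c677 (gc c687 (gc c690 (gc m1 (gc m16
    (gc m19 gn))))))))))))))))))))))))))))))))))))))))))))))))))))))))))))))))))))))))))))))))))))))))))))))))))))))))))))))))))))))))))))))))))))))))))))))))))))))))))))))))

theorem m22 : GK M22 := good_lem s22 (by decide +kernel) r22

set_option maxRecDepth 100000 in
theorem s23 : ∀ C ∈ S23, GK C :=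
  (gc c0 (gc c149 (gc c6 (gc c121 (gc c267 (gc c3 (gc c284 (gc c13 (gc c172 (gc c138 (gc c145 (gc c387
    (gc c626 (gc c116 (gc c117 (gc c173 (gc c257 (gc c1 (gc c49 (gc c71 (gc c127 (gc c171 (gc c364 (gc c384
    (gc c671 (gc m16 (gc c31 (gc c175 (gc c190 (gc c228 (gc c236 (gc c265 (gc c277 (gc m20 (gc m22 (gc c4
    (gc c105 (gc c108 (gc c112 (gc c148 (gc c169 (gc c184 (gc c194 (gc c227 (gc c345 (gc c365 (gc c559
    (gc c577 (gc c584 (gc m8 (gc m15 (gc m17 (gc c111 (gc c170 (gc c242 (gc c256 (gc c333 (gc c346 (gc c440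
    (gc c629 (gc c655 (gc m10 (gc m19 (gc m21 (gc c7 (gc c52 (gc c66 (gc c70 (gc c89 (gc c139 (gc c150
    (gc c155 (gc c181 (gc c234 (gc c252 (gc c294 (gc c351 (gc c352 (gc c458 (gc c560 (gc c581 (gc c599
    (gc c633 (gc c686 (gc m7 (gc m14 (gc c11 (gc c30 (gc c83 (gc c87 (gc c101 (gc c140 (gc c142 (gc c147
    (gc c156 (gc c205 (gc c206 (gc c217 (gc c230 (gc c264 (gc c274 (gc c286 (gc c287 (gc c369 (gc c379
    (gc c380 (gc c418 (gc c444 (gc c468 (gc c623 (gc m9 (gc m11 (gc m13 (gc c5 (gc c14 (gc c38 (gc c40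
    (gc c41 (gc c73 (gc c88 (gc c92 (gc c94 (gc c95 (gc c113 (gc c115 (gc c123 (gc c134 (gc c137 (gc c146
    (gc c165 (gc c192 (gc c196 (gc c204 (gc c244 (gc c247 (gc c285 (gc c289 (gc c292 (gc c313 (gc c314
    (gc c356 (gc c368 (gc c372 (gc c394 (gc c413 (gc c460 (gc c478 (gc c479 (gc c487 (gc c489 (gc c490
    (gc c516 (gc c535 (gc c541 (gc c619 (gc c647 (gc m12 (gc c2 (gc c39 (gc c45 (gc c84 (gc c86 (gc c90
    (gc c102 (gc c132 (gc c133 (gc c141 (gc c152 (gc c157 (gc c180 (gc c232 (gc c237 (gc c241 (gc c245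
    (gc c258 (gc c279 (gc c288 (gc c312 (gc c316 (gc c325 (gc c334 (gc c340 (gc c347 (gc c349 (gc c374
    (gc c389 (gc c391 (gc c393 (gc c398 (gc c400 (gc c403 (gc c404 (gc c409 (gc c411 (gc c417 (gc c426
    (gc c432 (gc c459 (gc c461 (gc c464 (gc c472 (gc c483 (gc c493 (gc c523 (gc c529 (gc c545 (gc c596
    (gc c600 (gc c610 (gc c620 (gc c631 (gc c632 (gc c638 (gc c642 (gc c646 (gc c654 (gc c658 (gc c674
    (gc m1 gn)))))))))))))))))))))))))))))))))))))))))))))))))))))))))))))))))))))))))))))))))))))))))))))))))))))))))))))))))))))))))))))))))))))))))))))))))))))))))))))))))))))))))))))))))))))))))))))))))))))))))))))))))))))))))))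

theorem m23 : GK M23 := good_lem s23 (by decide +kernel) r23

set_option maxRecDepth 100000 in
theorem s24 : ∀ C ∈ S24, GK C :=
  (gc m13 (gc c230 (gc c0 (gc c267 (gc c6 (gc c108 (gc c116 (gc c117 (gc c171 (gc c364 (gc m23 (gc c70
    (gc c121 (gc c172 (gc c173 (gc c175 (gc c184 (gc c190 (gc c478 (gc c31 (gc c71 (gc c227 (gc c284 (gc c1
    (gc c11 (gc c40 (gc c83 (gc c118 (gc c169 (gc c170 (gc c194 (gc c256 (gc c277 (gc c285 (gc c313 (gc c380
    (gc c440 (gc c487 (gc c559 (gc c654 (gc m5 (gc m21 (gc m22 (gc c3 (gc c4 (gc c13 (gc c49 (gc c111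
    (gc c133 (gc c145 (gc c192 (gc c205 (gc c228 (gc c264 (gc c274 (gc c351 (gc c393 (gc c403 (gc c560
    (gc c620 (gc c626 (gc c655 (gc c7 (gc c14 (gc c52 (gc c87 (gc c112 (gc c138 (gc c139 (gc c142 (gc c196
    (gc c204 (gc c237 (gc c241 (gc c251 (gc c287 (gc c294 (gc c314 (gc c316 (gc c340 (gc c365 (gc c376
    (gc c384 (gc c446 (gc c483 (gc c489 (gc c507 (gc c520 (gc c557 (gc c638 (gc c647 (gc m1 (gc m12
    (gc m14 gn))))))))))))))))))))))))))))))))))))))))))))))))))))))))))))))))))))))))))))))))))))))))))))))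

theorem m24 : GK M24 := good_lem s24 (by decide +kernel) r24

set_option maxRecDepth 100000 in
theorem s25 : ∀ C ∈ S25, GK C :=
  (gc c138 (gc c49 (gc c149 (gc c172 (gc m23 (gc c3 (gc c145 (gc c284 (gc c1 (gc c71 (gc c171 (gc c190
    (gc c194 (gc c0 (gc c134 (gc c184 (gc c267 (gc c285 (gc c559 (gc c620 (gc c647 (gc c654 (gc m10 (gc c6
    (gc c13 (gc c87 (gc c170 (gc c173 (gc c175 (gc c223 (gc c292 (gc c626 (gc c686 (gc m8 (gc m22 (gc c11
    (gc c31 (gc c38 (gc c116 (gc c117 (gc c118 (gc c121 (gc c132 (gc c192 (gc c205 (gc c228 (gc c289 (gc c316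
    (gc c345 (gc c364 (gc c379 (gc c380 (gc c385 (gc c391 (gc c535 (gc c577 (gc c595 (gc m13 (gc m17 (gc m19
    (gc c4 (gc c45 (gc c64 (gc c70 (gc c95 (gc c135 (gc c141 (gc c159 (gc c181 (gc c195 (gc c206 (gc c229
    (gc c236 (gc c247 (gc c252 (gc c265 (gc c274 (gc c277 (gc c334 (gc c369 (gc c373 (gc c376 (gc c384
    (gc c387 (gc c421 (gc c464 (gc c476 (gc c478 (gc c529 (gc c581 (gc c584 (gc c589 (gc c596 (gc c618
    (gc c646 (gc c671 (gc m16 (gc m18
    (gc m24 gn)))))))))))))))))))))))))))))))))))))))))))))))))))))))))))))))))))))))))))))))))))))))))))))))))))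

theorem m25 : GK M25 := good_lem s25 (by decide +kernel) r25

set_option maxRecDepth 100000 in
theorem s26 : ∀ C ∈ S26, GK C :=
  (gc c138 (gc c6 (gc m23 (gc c0 (gc m15 (gc c267 (gc c172 (gc c3 (gc c105 (gc c108 (gc c121 (gc c364
    (gc c116 (gc c117 (gc c265 (gc c49 (gc c71 (gc c234 (gc m7 (gc m16 (gc c173 (gc c284 (gc c584 (gc c623
    (gc c647 (gc c654 (gc m24 (gc c149 (gc c175 (gc c181 (gc c184 (gc c190 (gc c333 (gc c365 (gc c529
    (gc c559 (gc c127 (gc c131 (gc c133 (gc c340 (gc c380 (gc c478 (gc m11 (gc m19 (gc m22 (gc m25 (gc c4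
    (gc c70 (gc c83 (gc c140 (gc c145 (gc c192 (gc c244 (gc c277 (gc c285 (gc c334 (gc c345 (gc c347 (gc c369
    (gc c384 (gc c440 (gc c458 (gc c479 (gc c535 (gc c581 (gc c620 (gc m8 (gc m10 (gc c1 (gc c7 (gc c13
    (gc c86 (gc c89 (gc c112 (gc c122 (gc c123 (gc c139 (gc c142 (gc c154 (gc c165 (gc c178 (gc c180 (gc c194
    (gc c252 (gc c274 (gc c372 (gc c379 (gc c393 (gc c398 (gc c411 (gc c417 (gc c421 (gc c426 (gc c432
    (gc c444 (gc c512 (gc c557 (gc c626 (gc c629 (gc c642 (gc c655 (gc m14 (gc m17 (gc c11 (gc c31 (gc c38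
    (gc c43 (gc c52 (gc c84 (gc c87 (gc c88 (gc c92 (gc c111 (gc c118 (gc c135 (gc c148 (gc c150 (gc c157
    (gc c170 (gc c171 (gc c205 (gc c217 (gc c229 (gc c230 (gc c232 (gc c233 (gc c237 (gc c247 (gc c259
    (gc c264 (gc c275 (gc c294 (gc c319 (gc c325 (gc c341 (gc c349 (gc c352 (gc c368 (gc c375 (gc c413
    (gc c418 (gc c437 (gc c446 (gc c464 (gc c487 (gc c516 (gc c519 (gc c534 (gc c599 (gc c631 (gc c665
    (gc c671 (gc c686
    (gc m13 gn))))))))))))))))))))))))))))))))))))))))))))))))))))))))))))))))))))))))))))))))))))))))))))))))))))))))))))))))))))))))))))))))))))))))))))))))))))))))))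

theorem m26 : GK M26 := good_lem s26 (by decide +kernel) r26

set_option maxRecDepth 100000 in
theorem s27 : ∀ C ∈ S27, GK C :=
  (gc m26 (gc c654 (gc c149 (gc c6 (gc c172 (gc c138 (gc c71 (gc m25 (gc c515 (gc c557 (gc c657 (gc c70
    (gc c133 (gc c192 (gc c671 (gc m21 (gc c49 (gc c88 (gc c112 (gc c121 (gc c127 (gc c265 (gc c365 (gc c379
    (gc c443 (gc c587 (gc c599 (gc c629 (gc c659 (gc c31 (gc c108 (gc c165 (gc c214 (gc c267 (gc c273
    (gc c433 (gc c446 (gc c452 (gc c464 (gc c472 (gc c543 (gc c568 (gc c686 (gc c50 (gc c89 (gc c105 (gc c118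
    (gc c132 (gc c145 (gc c156 (gc c181 (gc c204 (gc c205 (gc c229 (gc c237 (gc c247 (gc c275 (gc c277
    (gc c280 (gc c282 (gc c292 (gc c296 (gc c305 (gc c316 (gc c325 (gc c345 (gc c356 (gc c370 (gc c416
    (gc c435 (gc c436 (gc c444 (gc c478 (gc c502 (gc c509 (gc c583 (gc c663 (gc c685 (gc c693 (gc m14 (gc m24
    (gc c0 (gc c1 (gc c3 (gc c29 (gc c37 (gc c40 (gc c44 (gc c65 (gc c67 (gc c68 (gc c111 (gc c117 (gc c134
    (gc c141 (gc c173 (gc c184 (gc c194 (gc c217 (gc c244 (gc c256 (gc c262 (gc c266 (gc c272 (gc c274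
    (gc c324 (gc c326 (gc c340 (gc c366 (gc c369 (gc c376 (gc c380 (gc c393 (gc c437 (gc c447 (gc c450
    (gc c470 (gc c479 (gc c487 (gc c508 (gc c559 (gc c560 (gc c591 (gc c648 (gc c656 (gc c681 (gc m7 (gc m8
    (gc m10 (gc m13 (gc m19 (gc c4 (gc c13 (gc c25 (gc c41 (gc c43 (gc c51 (gc c52 (gc c87 (gc c102 (gc c113
    (gc c116 (gc c123 (gc c124 (gc c147 (gc c150 (gc c155 (gc c157 (gc c163 (gc c169 (gc c176 (gc c178
    (gc c190 (gc c191 (gc c206 (gc c215 (gc c226 (gc c228 (gc c248 (gc c259 (gc c283 (gc c302 (gc c310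
    (gc c319 (gc c320 (gc c346 (gc c349 (gc c350 (gc c354 (gc c367 (gc c371 (gc c373 (gc c386 (gc c395
    (gc c400 (gc c403 (gc c417 (gc c418 (gc c427 (gc c440 (gc c474 (gc c477 (gc c483 (gc c485 (gc c503
    (gc c506 (gc c512 (gc c522 (gc c535 (gc c536 (gc c545 (gc c577 (gc c589 (gc c600 (gc c604 (gc c609
    (gc c612 (gc c620 (gc c622 (gc c631 (gc c632 (gc c634 (gc c639 (gc c658 (gc c668 (gc c670 (gc m17 (gc m22
    (gc m23 gn)))))))))))))))))))))))))))))))))))))))))))))))))))))))))))))))))))))))))))))))))))))))))))))))))))))))))))))))))))))))))))))))))))))))))))))))))))))))))))))))))))))))))))))))))))))))))))))))))))))))))))))))))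

theorem m27 : GK M27 := good_lem s27 (by decide +kernel) r27

set_option maxRecDepth 100000 in
theorem s28 : ∀ C ∈ S28, GK C :=
  (gc c138 (gc c172 (gc c6 (gc c149 (gc m26 (gc c671 (gc c192 (gc c49 (gc c121 (gc c3 (gc c70 (gc c654
    (gc c88 (gc c43 (gc c247 (gc c515 (gc c665 (gc c65 (gc c67 (gc c71 (gc c265 (gc c657 (gc c31 (gc c127
    (gc c296 (gc c411 (gc c529 (gc c655 (gc m20 (gc c89 (gc c93 (gc c132 (gc c145 (gc c280 (gc c369 (gc c437
    (gc c458 (gc c478 (gc c557 (gc c686 (gc c4 (gc c83 (gc c101 (gc c116 (gc c123 (gc c173 (gc c229 (gc c267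
    (gc c433 (gc c436 (gc c483 (gc c523 (gc c559 (gc c599 (gc m27 (gc c52 (gc c86 (gc c87 (gc c117 (gc c181
    (gc c184 (gc c213 (gc c258 (gc c273 (gc c277 (gc c366 (gc c367 (gc c371 (gc c427 (gc c443 (gc c452
    (gc c464 (gc c503 (gc c560 (gc c568 (gc c583 (gc c591 (gc c693 (gc c42 (gc c118 (gc c146 (gc c171
    (gc c175 (gc c190 (gc c259 (gc c266 (gc c272 (gc c292 (gc c350 (gc c359 (gc c364 (gc c418 (gc c426
    (gc c432 (gc c435 (gc c440 (gc c479 (gc c512 (gc c626 (gc c659 (gc c663 (gc c672 (gc m19 (gc c0 (gc c13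
    (gc c37 (gc c68 (gc c69 (gc c92 (gc c112 (gc c113 (gc c141 (gc c157 (gc c193 (gc c205 (gc c227 (gc c264
    (gc c270 (gc c284 (gc c288 (gc c302 (gc c325 (gc c326 (gc c349 (gc c375 (gc c384 (gc c417 (gc c447
    (gc c543 (gc c587 (gc c589 (gc c629 (gc c637 (gc c639 (gc c647 (gc c670 (gc c678 (gc c681 (gc m8 (gc m23
    (gc m25 (gc c11 (gc c25 (gc c30 (gc c38 (gc c40 (gc c41 (gc c44 (gc c51 (gc c108 (gc c142 (gc c163
    (gc c176 (gc c178 (gc c194 (gc c218 (gc c220 (gc c228 (gc c230 (gc c232 (gc c234 (gc c236 (gc c283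
    (gc c285 (gc c290 (gc c294 (gc c297 (gc c316 (gc c324 (gc c345 (gc c352 (gc c354 (gc c365 (gc c373
    (gc c376 (gc c379 (gc c380 (gc c387 (gc c393 (gc c402 (gc c450 (gc c477 (gc c502 (gc c508 (gc c520
    (gc c535 (gc c536 (gc c577 (gc c584 (gc c594 (gc c609 (gc c610 (gc c620 (gc c623 (gc c658 (gc c673
    (gc c685 (gc m10 (gc m24 (gc c29 (gc c39 (gc c66 (gc c73 (gc c95 (gc c102 (gc c105 (gc c111 (gc c122
    (gc c128 (gc c133 (gc c135 (gc c143 (gc c147 (gc c148 (gc c156 (gc c191 (gc c195 (gc c196 (gc c206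
    (gc c214 (gc c217 (gc c226 (gc c241 (gc c252 (gc c254 (gc c256 (gc c274 (gc c275 (gc c276 (gc c282
    (gc c287 (gc c295 (gc c300 (gc c312 (gc c315 (gc c319 (gc c320 (gc c333 (gc c334 (gc c346 (gc c347
    (gc c353 (gc c360 (gc c370 (gc c381 (gc c383 (gc c389 (gc c398 (gc c407 (gc c408 (gc c420 (gc c421
    (gc c422 (gc c438 (gc c446 (gc c457 (gc c487 (gc c504 (gc c509 (gc c514 (gc c516 (gc c517 (gc c519
    (gc c539 (gc c545 (gc c581 (gc c585 (gc c600 (gc c611 (gc c612 (gc c617 (gc c619 (gc c624 (gc c630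
    (gc c631 (gc c638 (gc c648 (gc c667 (gc m2 (gc m6 (gc m17
    (gc m22 gn))))))))))))))))))))))))))))))))))))))))))))))))))))))))))))))))))))))))))))))))))))))))))))))))))))))))))))))))))))))))))))))))))))))))))))))))))))))))))))))))))))))))))))))))))))))))))))))))))))))))))))))))))))))))))))))))))))))))))))))))))))))))))))))))))))))))))))))))))))))))))

theorem m28 : GK M28 := good_lem s28 (by decide +kernel) r28

set_option maxRecDepth 100000 in
theorem s29 : ∀ C ∈ S29, GK C :=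
  (gc c172 (gc c267 (gc c654 (gc m26 (gc c118 (gc c557 (gc c71 (gc c112 (gc c671 (gc m27 (gc c49 (gc c149
    (gc c88 (gc c265 (gc c364 (gc c478 (gc c0 (gc c6 (gc c181 (gc c184 (gc c138 (gc c173 (gc c686 (gc m28
    (gc c121 (gc c175 (gc c190 (gc c347 (gc c87 (gc c116 (gc c369 (gc c70 (gc c117 (gc c274 (gc c192 (gc c89
    (gc c205 (gc c599 (gc c31 (gc c446 (gc c560 (gc c284 (gc c411 (gc c647 (gc c132 (gc c147 (gc c275
    (gc c349 (gc c379 (gc c365 (gc m7 (gc c163 (gc c270 (gc c316 (gc c345 (gc c417 (gc c464 (gc c4 (gc c204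
    (gc c38 (gc c105 (gc c133 (gc c145 (gc c229 (gc c256 (gc c277 (gc c444 (gc c632 (gc m21 (gc m24 (gc c3
    (gc c7 (gc c86 (gc c93 (gc c123 (gc c134 (gc c234 (gc c285 (gc c155 (gc c228 (gc c230 (gc c259 (gc c325
    (gc c356 (gc c372 (gc c393 (gc c421 (gc c479 (gc c512 (gc c543 (gc c610 (gc c11 (gc c101 (gc c109
    (gc c113 (gc c122 (gc c127 (gc c206 (gc c217 (gc c237 (gc c244 (gc c247 (gc c252 (gc c264 (gc c292
    (gc c373 (gc c374 (gc c458 (gc c626 (gc c631 (gc c39 (gc c66 (gc c73 (gc c136 (gc c141 (gc c166 (gc c194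
    (gc c251 (gc c281 (gc c389 (gc c426 (gc c432 (gc c437 (gc c438 (gc c483 (gc c613 (gc m13 (gc c1 (gc c5
    (gc c30 (gc c40 (gc c52 (gc c92 (gc c95 (gc c124 (gc c131 (gc c139 (gc c142 (gc c144 (gc c146 (gc c167
    (gc c170 (gc c180 (gc c193 (gc c196 (gc c215 (gc c232 (gc c240 (gc c241 (gc c279 (gc c283 (gc c289
    (gc c297 (gc c299 (gc c319 (gc c352 (gc c353 (gc c380 (gc c384 (gc c387 (gc c413 (gc c418 (gc c472
    (gc c545 (gc c559 (gc c617 (gc c618 (gc c622 (gc c629 (gc c638 (gc c655 (gc c657 (gc c663 (gc c678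
    (gc c687 (gc c689 (gc c693
    (gc m20 gn))))))))))))))))))))))))))))))))))))))))))))))))))))))))))))))))))))))))))))))))))))))))))))))))))))))))))))))))))))))))))))))))))))))))))))))))))))))))))))))))))))))))))))))))))

theorem m29 : GK M29 := good_lem s29 (by decide +kernel) r29

set_option maxRecDepth 100000 in
theorem s30 : ∀ C ∈ S30, GK C :=
  (gc c654 (gc c121 (gc m26 (gc c217 (gc m28 (gc c280 (gc c433 (gc c478 (gc c89 (gc c105 (gc c184 (gc c316
    (gc c354 (gc c92 (gc c176 (gc c194 (gc c274 (gc c277 (gc c282 (gc c440 (gc c443 (gc c487 (gc c503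
    (gc c557 (gc c559 (gc c560 (gc c589 (gc c599 (gc c631 (gc c657 (gc m8 (gc m22 (gc m23 (gc m25 (gc m27
    (gc c145 (gc c149 (gc c170 (gc c172 (gc c214 (gc c356 (gc c369 (gc c426 (gc c432 (gc c436 (gc c447
    (gc c470 (gc c472 (gc c477 (gc c512 (gc c568 (gc c591 (gc c663 (gc c670 (gc c685 (gc m10 (gc c116
    (gc c117 (gc c118 (gc c124 (gc c127 (gc c155 (gc c175 (gc c185 (gc c190 (gc c192 (gc c206 (gc c251
    (gc c264 (gc c272 (gc c273 (gc c275 (gc c284 (gc c305 (gc c315 (gc c320 (gc c367 (gc c371 (gc c372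
    (gc c393 (gc c427 (gc c452 (gc c474 (gc c502 (gc c506 (gc c507 (gc c508 (gc c583 (gc c601 (gc c609
    (gc c659 (gc c681 (gc c693 (gc m0
    (gc m14 gn)))))))))))))))))))))))))))))))))))))))))))))))))))))))))))))))))))))))))))))))))))))))))))))))

theorem m30 : GK M30 := good_lem s30 (by decide +kernel) r30

set_option maxRecDepth 100000 in
theorem s31 : ∀ C ∈ S31, GK C :=
  (gc m27 (gc c267 (gc c112 (gc m30 (gc c118 (gc c654 (gc c105 (gc c173 (gc c284 (gc c347 (gc m24 (gc m29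
    (gc c121 (gc c325 (gc c172 (gc c192 (gc c478 (gc c622 (gc c155 (gc c204 (gc c393 (gc c127 (gc c181
    (gc c184 (gc c205 (gc c365 (gc c444 (gc c557 (gc c560 (gc c88 (gc c175 (gc c190 (gc c599 (gc c89 (gc c116
    (gc c117 (gc c133 (gc c316 (gc c364 (gc c437 (gc c438 (gc c446
    (gc m26 gn)))))))))))))))))))))))))))))))))))))))))))

theorem m31 : GK M31 := good_lem s31 (by decide +kernel) r31

set_option maxRecDepth 100000 in
theorem s32 : ∀ C ∈ S32, GK C :=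
  (gc c267 (gc c3 (gc c118 (gc c138 (gc c654 (gc c116 (gc c149 (gc c364 (gc c49 (gc c252 (gc c31 (gc c117
    (gc c172 (gc c373 (gc c584 (gc m7 (gc m26 (gc m28 (gc c0 (gc c87 (gc c112 (gc c284 (gc c334 (gc c559
    (gc c581 (gc c655 (gc m10 (gc c6 (gc c83 (gc c89 (gc c93 (gc c101 (gc c108 (gc c111 (gc c173 (gc c175
    (gc c184 (gc c190 (gc c194 (gc c237 (gc c275 (gc c277 (gc c288 (gc c292 (gc c345 (gc c352 (gc c393
    (gc c411 (gc c418 (gc c421 (gc c440 (gc c479 (gc c626 (gc c663 (gc c671 (gc c678 (gc c686 (gc m16 (gc m20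
    (gc m23 (gc m24 (gc m30 (gc c88 (gc c95 (gc c113 (gc c121 (gc c122 (gc c123 (gc c132 (gc c139 (gc c142
    (gc c145 (gc c146 (gc c155 (gc c170 (gc c171 (gc c206 (gc c220 (gc c227 (gc c228 (gc c229 (gc c232
    (gc c234 (gc c240 (gc c247 (gc c259 (gc c264 (gc c265 (gc c274 (gc c289 (gc c349 (gc c359 (gc c365
    (gc c369 (gc c376 (gc c380 (gc c384 (gc c446 (gc c478 (gc c507 (gc c535 (gc c599
    (gc m31 gn)))))))))))))))))))))))))))))))))))))))))))))))))))))))))))))))))))))))))))))))))))))))))))))))))))))))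

theorem m32 : GK M32 := good_lem s32 (by decide +kernel) r32

set_option maxRecDepth 100000 in
theorem s33 : ∀ C ∈ S33, GK C :=
  (gc c138 (gc c149 (gc c172 (gc c671 (gc c6 (gc c89 (gc c478 (gc c654 (gc c71 (gc m32 (gc c65 (gc c88
    (gc m30 (gc c181 (gc c686 (gc m26 (gc c121 (gc m28 (gc c49 (gc c70 (gc c193 (gc c464 (gc c411 (gc c118
    (gc c369 (gc c421 (gc c560 (gc c599 (gc c44 (gc c112 (gc c157 (gc c349 (gc c427 (gc c557 (gc m24 (gc c0
    (gc c3 (gc c43 (gc c108 (gc c175 (gc c184 (gc c191 (gc c204 (gc c247 (gc c272 (gc c280 (gc c320 (gc c379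
    (gc c435 (gc c458 (gc c479 (gc c589 (gc c591 (gc c30 (gc c31 (gc c83 (gc c86 (gc c117 (gc c123 (gc c145
    (gc c173 (gc c192 (gc c326 (gc c347 (gc c371 (gc c437 (gc c440 (gc c629 (gc c647 (gc c657 (gc c67
    (gc c101 (gc c116 (gc c163 (gc c213 (gc c266 (gc c267 (gc c277 (gc c295 (gc c296 (gc c433 (gc c452
    (gc c509 (gc c515 (gc c523 (gc m27 (gc c7 (gc c41 (gc c69 (gc c75 (gc c87 (gc c127 (gc c147 (gc c156
    (gc c234 (gc c259 (gc c262 (gc c274 (gc c325 (gc c407 (gc c417 (gc c418 (gc c436 (gc c472 (gc c502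
    (gc c507 (gc c512 (gc c529 (gc c543 (gc c587 (gc c610 (gc c620 (gc c655 (gc c665 (gc c668 (gc c689
    (gc m31 (gc c1 (gc c4 (gc c40 (gc c42 (gc c51 (gc c68 (gc c93 (gc c133 (gc c136 (gc c139 (gc c146
    (gc c176 (gc c178 (gc c190 (gc c194 (gc c214 (gc c229 (gc c237 (gc c256 (gc c264 (gc c265 (gc c275
    (gc c285 (gc c343 (gc c345 (gc c354 (gc c364 (gc c372 (gc c373 (gc c375 (gc c384 (gc c393 (gc c416
    (gc c420 (gc c426 (gc c432 (gc c443 (gc c446 (gc c483 (gc c506 (gc c517 (gc c530 (gc c535 (gc c559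
    (gc c583 (gc c594 (gc c601 (gc c626 (gc c631 (gc c663 (gc c670 (gc c672 (gc c681 (gc c685 (gc c693
    (gc m23 (gc m29 (gc c5 (gc c11 (gc c14 (gc c29 (gc c37 (gc c50 (gc c52 (gc c66 (gc c92 (gc c105 (gc c113
    (gc c122 (gc c124 (gc c125 (gc c132 (gc c134 (gc c141 (gc c142 (gc c148 (gc c171 (gc c205 (gc c225
    (gc c227 (gc c228 (gc c248 (gc c252 (gc c261 (gc c273 (gc c282 (gc c284 (gc c288 (gc c292 (gc c294
    (gc c310 (gc c312 (gc c324 (gc c333 (gc c339 (gc c340 (gc c341 (gc c350 (gc c356 (gc c365 (gc c367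
    (gc c368 (gc c374 (gc c387 (gc c401 (gc c408 (gc c413 (gc c431 (gc c444 (gc c447 (gc c450 (gc c470
    (gc c487 (gc c516 (gc c522 (gc c539 (gc c556 (gc c568 (gc c604 (gc c605 (gc c617 (gc c623 (gc c632
    (gc c637 (gc c646 (gc c648 (gc c658 (gc c659 (gc c677 (gc c678 (gc c687 (gc c690
    (gc m25 gn))))))))))))))))))))))))))))))))))))))))))))))))))))))))))))))))))))))))))))))))))))))))))))))))))))))))))))))))))))))))))))))))))))))))))))))))))))))))))))))))))))))))))))))))))))))))))))))))))))))))))))))))))))))))))))))))))))))))))))))))))))))))))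

theorem m33 : GK M33 := good_lem s33 (by decide +kernel) r33

set_option maxRecDepth 100000 in
theorem s34 : ∀ C ∈ S34, GK C :=
  (gc m33 (gc m28 (gc c257 (gc c49 (gc c172 (gc c173 (gc c194 (gc c267 (gc c277 (gc c559 (gc c655 (gc m26
    (gc m29 (gc c184 (gc c407 (gc c31 (gc c121 (gc c364 (gc c440 (gc c478 (gc c523 (gc c116 (gc c117 (gc c142
    (gc c175 (gc c190 (gc m10 (gc m19 (gc m32 (gc c83 (gc c108 (gc c138 (gc c171 (gc c205 (gc c233 (gc c274
    (gc c345 (gc c654 (gc m24 (gc m30 (gc m31 (gc c0 (gc c1 (gc c6 (gc c88 (gc c109 (gc c123 (gc c136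
    (gc c140 (gc c145 (gc c149 (gc c252 (gc c258 (gc c264 (gc c265 (gc c270 (gc c284 (gc c285 (gc c288
    (gc c294 (gc c365 (gc c373 (gc c376
    (gc c458 gn))))))))))))))))))))))))))))))))))))))))))))))))))))))))))))))))

theorem m34 : GK M34 := good_lem s34 (by decide +kernel) r34

set_option maxRecDepth 100000 in
theorem s35 : ∀ C ∈ S35, GK C :=
  (gc c267 (gc m34 (gc c89 (gc c284 (gc c654 (gc c88 (gc c274 (gc c116 (gc c364 (gc c117 (gc c105 (gc c118
    (gc c172 (gc c173 (gc c184 (gc c275 (gc c347 (gc c478 (gc c112 (gc c599 (gc m33 (gc c121 (gc c149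
    (gc c155 (gc c175 (gc c190 (gc c444 (gc c560 (gc m28 (gc c178 (gc c356 (gc c446 (gc c557 (gc m32 (gc c181
    (gc c251 (gc c122 (gc c127 (gc c217 (gc c241 (gc c265 (gc c316 (gc c369 (gc c512 (gc m26 (gc m29 (gc c49
    (gc c109 (gc c156 (gc c192 (gc c215 (gc c237 (gc c270 (gc c325 (gc c464 (gc c610 (gc m30 (gc c92 (gc c123
    (gc c134 (gc c139 (gc c204 (gc c206 (gc c228 (gc c229 (gc c283 (gc c365 (gc c438 (gc c618 (gc c622
    (gc c626 (gc c632 (gc c663
    (gc m31 gn))))))))))))))))))))))))))))))))))))))))))))))))))))))))))))))))))))))))))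

theorem m35 : GK M35 := good_lem s35 (by decide +kernel) r35

set_option maxRecDepth 100000 in
theorem s36 : ∀ C ∈ S36, GK C :=
  (gc c71 (gc m34 (gc c172 (gc c0 (gc c267 (gc c393 (gc m35 (gc c31 (gc c671 (gc c70 (gc c446 (gc c464
    (gc c89 (gc c256 (gc c654 (gc c49 (gc c118 (gc c147 (gc c259 (gc c265 (gc c557 (gc c560 (gc c620 (gc c109
    (gc c121 (gc c175 (gc c181 (gc c197 (gc c270 (gc c274 (gc c325 (gc c380 (gc c438 (gc c444 (gc c478 (gc c3
    (gc c6 (gc c88 (gc c108 (gc c116 (gc c117 (gc c173 (gc c184 (gc c190 (gc c192 (gc c205 (gc c229 (gc c284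
    (gc c285 (gc c319 (gc c364 (gc c365 (gc c369 (gc c626 (gc m26 (gc m27 (gc c105 (gc c134 (gc c138 (gc c178
    (gc c283 (gc c352 (gc c384 (gc c385 (gc c458 (gc c577 (gc c647 (gc c7 (gc c13 (gc c65 (gc c101 (gc c102
    (gc c113 (gc c127 (gc c133 (gc c149 (gc c204 (gc c215 (gc c237 (gc c340 (gc c356 (gc c359 (gc c372
    (gc c379 (gc c421 (gc c520 (gc c591 (gc c599 (gc c631 (gc c658 (gc c689 (gc m30 (gc m31
    (gc m32 gn))))))))))))))))))))))))))))))))))))))))))))))))))))))))))))))))))))))))))))))))))))))))))))))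

theorem m36 : GK M36 := good_lem s36 (by decide +kernel) r36

set_option maxRecDepth 100000 in
theorem s37 : ∀ C ∈ S37, GK C :=
  (gc c172 (gc c557 (gc c654 (gc m34 (gc c6 (gc c71 (gc c138 (gc c121 (gc c192 (gc c118 (gc c671 (gc c145
    (gc c259 (gc c370 (gc c267 (gc c356 (gc c512 (gc c49 (gc c149 (gc c193 (gc c325 (gc c436 (gc c437
    (gc c478 (gc c560 (gc c589 (gc c647 (gc m32 (gc m35 (gc c0 (gc c65 (gc c78 (gc c86 (gc c112 (gc c122
    (gc c191 (gc c196 (gc c205 (gc c206 (gc c265 (gc c270 (gc c320 (gc c369 (gc c372 (gc c380 (gc c435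
    (gc c464 (gc c472 (gc c599 (gc c610 (gc c657 (gc m33 (gc c31 (gc c44 (gc c88 (gc c89 (gc c123 (gc c148
    (gc c175 (gc c181 (gc c190 (gc c197 (gc c204 (gc c229 (gc c266 (gc c326 (gc c364 (gc c371 (gc c433
    (gc c443 (gc c506 (gc c515 (gc c520 (gc c543 (gc c620 (gc c623 (gc c631 (gc c665 (gc m29 (gc m36 (gc c41
    (gc c68 (gc c70 (gc c75 (gc c108 (gc c113 (gc c127 (gc c131 (gc c132 (gc c173 (gc c213 (gc c214 (gc c230
    (gc c244 (gc c272 (gc c273 (gc c282 (gc c296 (gc c324 (gc c427 (gc c446 (gc c477 (gc c479 (gc c503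
    (gc c577 (gc c587 (gc c601 (gc c604 (gc c605 (gc c658 (gc m26 (gc c3 (gc c4 (gc c11 (gc c42 (gc c51
    (gc c67 (gc c92 (gc c115 (gc c116 (gc c117 (gc c133 (gc c142 (gc c147 (gc c156 (gc c176 (gc c185 (gc c195
    (gc c215 (gc c218 (gc c237 (gc c240 (gc c241 (gc c264 (gc c275 (gc c276 (gc c283 (gc c285 (gc c316
    (gc c322 (gc c340 (gc c352 (gc c354 (gc c365 (gc c367 (gc c385 (gc c393 (gc c401 (gc c411 (gc c426
    (gc c432 (gc c438 (gc c444 (gc c452 (gc c458 (gc c473 (gc c474 (gc c483 (gc c502 (gc c504 (gc c507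
    (gc c508 (gc c519 (gc c523 (gc c529 (gc c558 (gc c583 (gc c603 (gc c613 (gc c626 (gc c638 (gc c648
    (gc c659 (gc c663 (gc c668 (gc c670 (gc c681 (gc m24
    (gc m27 gn)))))))))))))))))))))))))))))))))))))))))))))))))))))))))))))))))))))))))))))))))))))))))))))))))))))))))))))))))))))))))))))))))))))))))))))))))))))))))))))))))))))))))))))))))))

theorem m37 : GK M37 := good_lem s37 (by decide +kernel) r37

set_option maxRecDepth 100000 in
theorem s38 : ∀ C ∈ S38, GK C :=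
  (gc c478 (gc c274 (gc c3 (gc c464 (gc c89 (gc c190 (gc c184 (gc c175 (gc c88 (gc c31 (gc c116 (gc c169
    (gc c364 (gc c557 (gc c204 (gc c267 (gc c543 (gc c599 (gc c112 (gc c117 (gc c155 (gc c654 (gc c92
    (gc c444 (gc c173 (gc c172 (gc c352 (gc c663 (gc c66 (gc c206 (gc c229 (gc c657 (gc c686 (gc m36 (gc c0
    (gc c87 (gc c275 (gc c284 (gc c316 (gc c560 (gc c356 (gc c589 (gc c659 (gc c40 (gc c438 (gc c508 (gc c568
    (gc c472 (gc c594 (gc m30 (gc m33 (gc m34 (gc m35 (gc c228 (gc c591 (gc c93 (gc c134 (gc c251 (gc c671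
    (gc c43 (gc c68 (gc c319 (gc c374 (gc c470 (gc c601 (gc c632 (gc c678
    (gc c693 gn))))))))))))))))))))))))))))))))))))))))))))))))))))))))))))))))))))

theorem m38 : GK M38 := good_lem s38 (by decide +kernel) r38

set_option maxRecDepth 100000 in
theorem s39 : ∀ C ∈ S39, GK C :=
  (gc c138 (gc c149 (gc c172 (gc c629 (gc c654 (gc c671 (gc c686 (gc c557 (gc c610 (gc m37 (gc c523 (gc c112
    (gc c49 (gc c88 (gc c89 (gc c181 (gc c560 (gc c375 (gc c43 (gc c146 (gc c261 (gc c52 (gc c478 (gc c349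
    (gc c437 (gc c626 (gc c105 (gc c193 (gc c156 (gc c297 (gc c369 (gc c464 (gc c3 (gc c101 (gc c407 (gc c265
    (gc c272 (gc c65 (gc c145 (gc c148 (gc c274 (gc c343 (gc c658 (gc c192 (gc c280 (gc c657 (gc c6 (gc c68
    (gc c127 (gc c184 (gc c371 (gc c433 (gc c508 (gc c599 (gc c118 (gc c157 (gc c266 (gc c267 (gc c292
    (gc c295 (gc c421 (gc c443 (gc c515 (gc c583 (gc c685 (gc m34 (gc c121 (gc c285 (gc c365 (gc c367
    (gc c435 (gc c447 (gc c483 (gc c589 (gc c665 (gc c117 (gc c122 (gc c123 (gc c191 (gc c273 (gc c366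
    (gc c502 (gc c506 (gc c507 (gc c529 (gc c670 (gc c120 (gc c190 (gc c296 (gc c354 (gc c516 (gc c568
    (gc c663 (gc c672 (gc m33 (gc c31 (gc c67 (gc c87 (gc c93 (gc c136 (gc c186 (gc c225 (gc c284 (gc c302
    (gc c364 (gc c426 (gc c432 (gc c436 (gc c659 (gc c681 (gc c689 (gc m31 (gc m35 (gc c116 (gc c176 (gc c213
    (gc c214 (gc c217 (gc c229 (gc c264 (gc c356 (gc c446 (gc c452 (gc c503 (gc c509 (gc c514 (gc c556
    (gc c637 (gc c0 (gc c71 (gc c73 (gc c142 (gc c173 (gc c175 (gc c228 (gc c275 (gc c282 (gc c283 (gc c326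
    (gc c477 (gc c587 (gc c591 (gc m38 (gc c92 (gc c108 (gc c113 (gc c129 (gc c205 (gc c206 (gc c234 (gc c270
    (gc c320 (gc c325 (gc c379 (gc c472 (gc c512 (gc c517 (gc c522 (gc c594 (gc c696 (gc c41 (gc c44 (gc c218
    (gc c223 (gc c247 (gc c262 (gc c319 (gc c339 (gc c352 (gc c368 (gc c370 (gc c420 (gc c427 (gc c450
    (gc c539 (gc c601 (gc c611 (gc c678 (gc c693 (gc c2 (gc c13 (gc c72 (gc c81 (gc c84 (gc c95 (gc c97
    (gc c178 (gc c180 (gc c185 (gc c187 (gc c198 (gc c220 (gc c226 (gc c276 (gc c281 (gc c290 (gc c299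
    (gc c316 (gc c324 (gc c360 (gc c373 (gc c418 (gc c470 (gc c491 (gc c492 (gc c513 (gc c545 (gc c558
    (gc c668
    (gc c688 gn))))))))))))))))))))))))))))))))))))))))))))))))))))))))))))))))))))))))))))))))))))))))))))))))))))))))))))))))))))))))))))))))))))))))))))))))))))))))))))))))))))))))))))))))))))))))))))))))))))))))))))))))))

theorem m39 : GK M39 := good_lem s39 (by decide +kernel) r39

set_option maxRecDepth 100000 in
theorem s40 : ∀ C ∈ S40, GK C :=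
  (gc m39 gn)

theorem m40 : GK M40 := good_lem s40 (by decide +kernel) r40

/-- **There is no system.** -/
theorem no_fr (T : ℕ → ℕ → Prop) (Q : ℕ → St → Prop) (h : Fr T Q) : False := not_fr m40 T Q h

end Vale.Agent.P032.H283.Isp
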